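import Vale.Agent.P146.H442.NeUs
import Vale.Agent.P146.H470.Env
import Vale.Agent.P146.H418.Par
import Vale.Agent.P146.H412.Q1g

/-!
# P146: the near end with all the modulated field revealed, eventually on the window

`uE q n y vp` = share of the plain field near the end, `eW q n y T` = size of the hidden windows,
`n7_num` = the numbers, `n7_rrg` = `T * L.rrg univ (1 - T) (uE ..) 1 ≤ n^(-37q) y^4` from the near
end with hidden sites and hidden windows at half the time, and the a priori size (`R` = any further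
condition on the data); `n7U` the same without the a priori size, `n7_fin` in the letters of NeFin.
`kw_par1`, `ap_kw` = standing hypotheses and a priori sizes on the window.
-/

open MeasureTheory ProbabilityTheory Filter Topology

namespace Vale.Agent.P146.H442.U

open Vale.Agent.P146.H418 Vale.Agent.P146.H470

/-- the share of the plain field near the end -/
noncomputable def uE (q : ℝ) (n : ℕ) (y vp : ℝ) : ℝ := 1 - (n : ℝ) ^ (-(37 * q)) * y ^ 4 / vp

/-- the size of the hidden windows of the fields -/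
noncomputable def eW (q : ℝ) (n : ℕ) (y T : ℝ) : ℝ := (n : ℝ) ^ (-(38 * q)) * y ^ 2 * √T

/-- the numbers of the last step -/
theorem n7_num {a0 b₁ q C b K : ℝ} (hb : 0 < b) (hC : 0 < C)
    (hb₁ : 100 * q < b₁) (hK : 10 * |Real.log b| + 10 * |Real.log C| + 10000 ≤ K) {n : ℕ}
    {y V : ℝ} (h : Env a0 b₁ (24 * q) q K n y V) {T η : ℝ}
    (h1 : (n : ℝ) ^ (-(37 * q)) * y ^ 4 ≤ T) (h2 : T ≤ (n : ℝ) ^ (-(70 * q)) * y ^ 2)
    (hη0 : 0 ≤ η) (hη1 : η ≤ 1) :
    4 * (4 * (n : ℝ) ^ (-(40 * q))) * (C * (n : ℝ) ^ q * y ^ 4) + 4 * (1 + η) ^ 2 / b ^ 2 *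
        (2 * eW q n y T * √(2 * (C * (n : ℝ) ^ q * y ^ 4) / T) +
          4 * (n : ℝ) ^ (-(40 * q)) * T * V) ≤
      1 / 2 * ((n : ℝ) ^ (-(37 * q)) * y ^ 4) := by
  obtain ⟨n0, y0, V0, L1, qL, cst, ll, yl, yu, Vl, Vu⟩ := h
  have c0 : Real.log b ≤ |Real.log b| := le_abs_self _
  have c1 : -Real.log b ≤ |Real.log b| := neg_le_abs _
  have c2 : Real.log C ≤ |Real.log C| := le_abs_self _
  have c3 : -Real.log C ≤ |Real.log C| := neg_le_abs _
  have a1 := abs_nonneg (Real.log b)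
  have a2 := abs_nonneg (Real.log C)
  have T0 : 0 < T := lt_of_lt_of_le (by positivity) h1
  have hT1 := Real.log_le_log (by positivity) h1
  have hT2 := Real.log_le_log T0 h2
  simp (disch := positivity) only [Real.log_mul, Real.log_rpow, Real.log_pow] at hT1 hT2
  push_cast at hT1 hT2
  have hb1 : 100 * (q * Real.log n) ≤ b₁ * Real.log n := by
    have := mul_le_mul_of_nonneg_right hb₁.le (by linarith : 0 ≤ Real.log n)
    linarith
  have d1 : ∀ c : ℝ, 0 < c → c ≤ 10000 → Real.log c ≤ 10000 := fun c h0 h9 =>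
    (Real.log_le_sub_one_of_pos h0).trans (by linarith)
  have g : 4 * (1 + η) ^ 2 / b ^ 2 ≤ 16 / b ^ 2 := by
    have : (1 + η) ^ 2 ≤ 4 := by nlinarith
    gcongr
    linarith
  have t1 : 4 * (4 * (n : ℝ) ^ (-(40 * q))) * (C * (n : ℝ) ^ q * y ^ 4) ≤
      1 / 6 * ((n : ℝ) ^ (-(37 * q)) * y ^ 4) := by
    have e : 96 * C * (n : ℝ) ^ (-(39 * q)) * y ^ 4 ≤ (n : ℝ) ^ (-(37 * q)) * y ^ 4 := by
      refine le_of_log (by positivity) (by positivity) ?_
      have l1 := d1 96 (by norm_num) (by norm_num)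
      simp (disch := positivity) only [Real.log_mul, Real.log_rpow, Real.log_pow]
      push_cast
      linarith
    have e2 : (n : ℝ) ^ (-(40 * q)) * (n : ℝ) ^ q = (n : ℝ) ^ (-(39 * q)) := by
      rw [← Real.rpow_add n0]
      congr 1
      ring
    calc 4 * (4 * (n : ℝ) ^ (-(40 * q))) * (C * (n : ℝ) ^ q * y ^ 4) =
          1 / 6 * (96 * C * ((n : ℝ) ^ (-(40 * q)) * (n : ℝ) ^ q) * y ^ 4) := by ring
      _ ≤ _ := by rw [e2]; linarith
  have t2 : 16 / b ^ 2 * (2 * eW q n y T * √(2 * (C * (n : ℝ) ^ q * y ^ 4) / T)) ≤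
      1 / 6 * ((n : ℝ) ^ (-(37 * q)) * y ^ 4) := by
    have e : 192 / b ^ 2 * (eW q n y T * √(2 * (C * (n : ℝ) ^ q * y ^ 4) / T)) ≤
        (n : ℝ) ^ (-(37 * q)) * y ^ 4 := by
      unfold eW
      refine le_of_log (by positivity) (by positivity) ?_
      have l1 := d1 192 (by norm_num) (by norm_num)
      have l2 := d1 2 (by norm_num) (by norm_num)
      simp (disch := positivity) only [Real.log_mul, Real.log_rpow, Real.log_pow, Real.log_div,
        Real.log_sqrt]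
      push_cast
      linarith
    calc 16 / b ^ 2 * (2 * eW q n y T * √(2 * (C * (n : ℝ) ^ q * y ^ 4) / T)) =
          1 / 6 * (192 / b ^ 2 * (eW q n y T * √(2 * (C * (n : ℝ) ^ q * y ^ 4) / T))) := by ring
      _ ≤ _ := by linarith
  have t3 : 16 / b ^ 2 * (4 * (n : ℝ) ^ (-(40 * q)) * T * V) ≤
      1 / 6 * ((n : ℝ) ^ (-(37 * q)) * y ^ 4) := by
    have e : 384 / b ^ 2 * ((n : ℝ) ^ (-(40 * q)) * T * V) ≤
        (n : ℝ) ^ (-(37 * q)) * y ^ 4 := by
      refine le_of_log (by positivity) (by positivity) ?_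
      have l1 := d1 384 (by norm_num) (by norm_num)
      simp (disch := positivity) only [Real.log_mul, Real.log_rpow, Real.log_pow, Real.log_div]
      push_cast
      linarith
    calc 16 / b ^ 2 * (4 * (n : ℝ) ^ (-(40 * q)) * T * V) =
          1 / 6 * (384 / b ^ 2 * ((n : ℝ) ^ (-(40 * q)) * T * V)) := by ring
      _ ≤ _ := by linarith
  have t4 : 4 * (1 + η) ^ 2 / b ^ 2 *
        (2 * eW q n y T * √(2 * (C * (n : ℝ) ^ q * y ^ 4) / T) +
          4 * (n : ℝ) ^ (-(40 * q)) * T * V) ≤ 16 / b ^ 2 *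
        (2 * eW q n y T * √(2 * (C * (n : ℝ) ^ q * y ^ 4) / T) +
          4 * (n : ℝ) ^ (-(40 * q)) * T * V) := by
    refine mul_le_mul_of_nonneg_right g ?_
    unfold eW
    positivity
  rw [mul_add (16 / b ^ 2)] at t4
  linarith

/-- **The near end with all the modulated field revealed, on the window.** From the near end with
hidden sites and hidden windows (`hne`) and the a priori size (`hap`), both at half the time. -/
theorem n7_rrg {a0 b₁ q A b C : ℝ} {R : ℕ → ℝ → ℝ → ℝ → ℝ → ℝ → ℝ → Prop} (hq : 0 < q) (hb : 0 < b) (hC : 0 < C) (hA : 1 ≤ A)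
    (ha0 : a0 ≤ 1 / 6) (hb₁ : 100 * q < b₁)
    (hne : ∀ᶠ n : ℕ in atTop, ∀ y V al s lam η : ℝ, KW a0 b₁ q A b n y V al s lam η →
      R n y V al s lam η → ∀ T, (n : ℝ) ^ (-(37 * q)) * y ^ 4 ≤ T →
        T ≤ (n : ℝ) ^ (-(70 * q)) * y ^ 2 →
      ∃ (S : Finset (Fin n)) (u1 g1 : ℝ),
        (n - S.card : ℝ) ≤ 4 * (n : ℝ) ^ (-(40 * q)) * n * T ∧
        0 ≤ u1 ∧ u1 ≤ uE q n y (V - s ^ 2) ∧ 0 ≤ g1 ∧ g1 ≤ 1 ∧
        (V - s ^ 2) * (uE q n y (V - s ^ 2) - u1) ≤ eW q n y T ∧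
        s ^ 2 * (1 - g1) ≤ eW q n y T ∧
        T * (lawOf n b y V al s lam η).rrg S (1 - T / 2) u1 g1 ≤
          1 / 2 * ((n : ℝ) ^ (-(37 * q)) * y ^ 4))
    (hap : ∀ᶠ n : ℕ in atTop, ∀ y V al s lam η : ℝ, KW a0 b₁ q A b n y V al s lam η →
      R n y V al s lam η → ∀ T, (n : ℝ) ^ (-(37 * q)) * y ^ 4 ≤ T →
        T ≤ (n : ℝ) ^ (-(70 * q)) * y ^ 2 →
      T * (lawOf n b y V al s lam η).rrg (Finset.univ : Finset (Fin n)) (1 - T / 2)
        (uE q n y (V - s ^ 2)) 1 ≤ C * (n : ℝ) ^ q * y ^ 4) :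
    ∀ᶠ n : ℕ in atTop, ∀ y V al s lam η : ℝ, KW a0 b₁ q A b n y V al s lam η →
      R n y V al s lam η → ∀ T, (n : ℝ) ^ (-(37 * q)) * y ^ 4 ≤ T →
        T ≤ (n : ℝ) ^ (-(70 * q)) * y ^ 2 →
      T * (lawOf n b y V al s lam η).rrg (Finset.univ : Finset (Fin n)) (1 - T)
        (uE q n y (V - s ^ 2)) 1 ≤ (n : ℝ) ^ (-(37 * q)) * y ^ 4 := by
  filter_upwards [hne, hap, env_ev (a0 := a0) (b₁ := b₁) (d := 24 * q)
    (10 * |Real.log b| + 10 * |Real.log C| + 10000) hq hA] with n e1 e2 e3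
  intro y V al s lam η h hR T h1 h2
  obtain ⟨S, u1, g1, k1, k2, k3, k4, k5, k6, k7, k8⟩ := e1 y V al s lam η h hR T h1 h2
  have k9 := e2 y V al s lam η h hR T h1 h2
  have e := e3 y V h.yl h.yu h.Vl h.Vu
  have n0 := e.n0
  have y0 := e.y0
  have V0 := e.V0
  have hn : 0 < n := e.n_pos
  have T0 : 0 < T := lt_of_lt_of_le (by positivity) h1
  have hs2 : s ^ 2 ≤ (n : ℝ) ^ (-(80 * q)) * V := h.s2
  have hn1 : (1 : ℝ) ≤ n := by exact_mod_cast hn
  have p1 : ∀ c : ℝ, 0 ≤ c → (n : ℝ) ^ (-(c * q)) ≤ 1 := fun c hc =>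
    Real.rpow_le_one_of_one_le_of_nonpos hn1 (by
      have := mul_nonneg hc hq.le
      linarith)
  have hvp : 0 ≤ V - s ^ 2 := by
    have := mul_le_mul_of_nonneg_right (p1 80 (by norm_num)) V0.le
    linarith
  have hη1 : η ≤ 1 := h.η1.trans (p1 2000 (by norm_num))
  have hT2 := Real.log_le_log T0 h2
  simp (disch := positivity) only [Real.log_mul, Real.log_rpow, Real.log_pow] at hT2
  push_cast at hT2
  obtain ⟨-, -, -, L1, qL, cst, ll, yl, yu, Vl, Vu⟩ := e3 y V h.yl h.yu h.Vl h.Vu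
  have c3 : -Real.log C ≤ |Real.log C| := neg_le_abs _
  have a1 := abs_nonneg (Real.log b)
  have a2 := abs_nonneg (Real.log C)
  have hL0 : 0 ≤ Real.log n := by linarith
  have hb1 : 100 * (q * Real.log n) ≤ b₁ * Real.log n := by
    have := mul_le_mul_of_nonneg_right hb₁.le hL0
    linarith
  have ha1 : a0 * Real.log n ≤ 1 / 6 * Real.log n := mul_le_mul_of_nonneg_right ha0 hL0
  have hT1 : T ≤ 1 := by
    refine le_of_log T0 one_pos ?_
    rw [Real.log_one]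
    linarith
  have hTn : T / n ≤ C * (n : ℝ) ^ q * y ^ 4 := by
    refine le_of_log (by positivity) (by positivity) ?_
    simp (disch := positivity) only [Real.log_mul, Real.log_rpow, Real.log_pow, Real.log_div]
    push_cast
    linarith
  have hu1 : uE q n y (V - s ^ 2) ≤ 1 := by
    unfold uE
    have : 0 ≤ (n : ℝ) ^ (-(37 * q)) * y ^ 4 / (V - s ^ 2) := by positivity
    linarith
  have h9 := ne_rrg (lawOf n b y V al s lam η) h.l0 h.η0.le h.y0 hb.ne' hn hvp S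
    (T := T) (θ := 4 * (n : ℝ) ^ (-(40 * q))) (a := C * (n : ℝ) ^ q * y ^ 4)
    (X := 1 / 2 * ((n : ℝ) ^ (-(37 * q)) * y ^ 4)) (e := 2 * eW q n y T)
    (u := uE q n y (V - s ^ 2)) (u' := u1) (g' := g1) T0 hT1 k2 k3 hu1 k4 k5 k1 (by positivity)
    k9 k8 (by
      show (V - s ^ 2) * (uE q n y (V - s ^ 2) - u1) + s ^ 2 * (1 - g1) ≤ _
      linarith) hTn
  have h10 := n7_num (K := 10 * |Real.log b| + 10 * |Real.log C| + 10000) hb hC hb₁
    le_rfl e h1 h2 h.η0.le hη1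
  refine h9.trans ?_
  have e9 : (lawOf n b y V al s lam η).vp + (lawOf n b y V al s lam η).s ^ 2 = V := by
    show V - s ^ 2 + s ^ 2 = V
    ring
  rw [e9]
  show 1 / 2 * ((n : ℝ) ^ (-(37 * q)) * y ^ 4) +
      4 * (4 * (n : ℝ) ^ (-(40 * q))) * (C * (n : ℝ) ^ q * y ^ 4) +
      4 * (1 + η) ^ 2 / b ^ 2 * (2 * eW q n y T * √(2 * (C * (n : ℝ) ^ q * y ^ 4) / T) +
        4 * (n : ℝ) ^ (-(40 * q)) * T * V) ≤ _
  linarith

/-- the window gives the standing hypotheses of the a priori sizes -/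
theorem kw_par1 {a0 b₁ q A b : ℝ} (hq : 0 < q) (hA : 1 ≤ A) (ha0 : a0 ≤ 1 / 6)
    (hb₁ : 100 * q < b₁) :
    ∀ᶠ n : ℕ in atTop, ∀ y V al s lam η : ℝ, KW a0 b₁ q A b n y V al s lam η →
      H516.Par1 b (q / 2) (900 * q) n (V - s ^ 2) s lam η y V al ∧ 0 < V - s ^ 2 ∧
        y ^ 2 * b ^ 2 ≤ 4 ∧ 0 ≤ uE q n y (V - s ^ 2) ∧ uE q n y (V - s ^ 2) ≤ 1 := by
  filter_upwards [env_ev (a0 := a0) (b₁ := b₁) (d := 24 * q)
    (10 * |Real.log b| + 10 * |Real.log A| + 10000) hq hA] with n e3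
  intro y V al s lam η h
  obtain ⟨n0, y0, V0, L1, qL, cst, ll, yl, yu, Vl, Vu⟩ := e3 y V h.yl h.yu h.Vl h.Vu
  have s0 := h.s0
  have l0 := h.l0
  have η0 := h.η0
  have hη := h.η1
  have c0 : Real.log b ≤ |Real.log b| := le_abs_self _
  have c2 : Real.log A ≤ |Real.log A| := le_abs_self _
  have c3 : -Real.log A ≤ |Real.log A| := neg_le_abs _
  have a1 := abs_nonneg (Real.log b)
  have a2 := abs_nonneg (Real.log A)
  have hL0 : 0 ≤ Real.log n := by linarith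
  have hb1 : 100 * (q * Real.log n) ≤ b₁ * Real.log n := by
    have := mul_le_mul_of_nonneg_right hb₁.le hL0
    linarith
  have ha1 : a0 * Real.log n ≤ 1 / 6 * Real.log n := mul_le_mul_of_nonneg_right ha0 hL0
  have d1 : ∀ c : ℝ, 0 < c → c ≤ 1000 → Real.log c ≤ 1000 := fun c h0 h9 =>
    (Real.log_le_sub_one_of_pos h0).trans (by linarith)
  have l2 := d1 2 (by norm_num) (by norm_num)
  have l3 := d1 3 (by norm_num) (by norm_num)
  have l20 : 0 < Real.log 2 := Real.log_pos (by norm_num)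
  have hn1 : (1 : ℝ) < n := by
    by_contra hc
    push Not at hc
    have := Real.log_nonpos n0.le hc
    linarith
  have hs2 : s ^ 2 ≤ V / 2 := by
    refine h.s2.trans (le_of_log (by positivity) (by positivity) ?_)
    simp (disch := positivity) only [Real.log_mul, Real.log_rpow, Real.log_div]
    linarith
  have hηl := Real.log_le_log η0 hη
  rw [Real.log_rpow n0] at hηl
  have hll := Real.log_le_log (by positivity) h.ll
  simp (disch := positivity) only [Real.log_mul, Real.log_rpow] at hll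
  have hvp : V / 2 ≤ V - s ^ 2 := by linarith
  have hvp0 : 0 < V - s ^ 2 := by linarith
  have hu0 : (n : ℝ) ^ (-(37 * q)) * y ^ 4 / (V - s ^ 2) ≤ 1 := by
    rw [div_le_one hvp0]
    refine le_trans (le_of_log (by positivity) (by positivity) ?_) hvp
    simp (disch := positivity) only [Real.log_mul, Real.log_rpow, Real.log_div, Real.log_pow]
    push_cast
    linarith
  have hu1 : 0 ≤ (n : ℝ) ^ (-(37 * q)) * y ^ 4 / (V - s ^ 2) := by positivity
  refine ⟨⟨hvp0.le, by ring, ?_, s0, ?_, η0, ?_, ?_, ?_, ?_, h.ap, h.sg⟩, hvp0, ?_, ?_, ?_⟩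
  · refine le_of_log V0 one_pos ?_
    rw [Real.log_one]
    linarith
  · refine le_of_log one_pos l0 ?_
    rw [Real.log_one]
    linarith
  · refine hη.trans (le_of_log (by positivity) (by norm_num) ?_)
    simp (disch := positivity) only [Real.log_rpow, Real.log_div, Real.log_one]
    linarith
  · refine le_of_log one_pos (by positivity) ?_
    simp (disch := positivity) only [Real.log_mul, Real.log_one]
    linarith
  · refine le_of_log (by positivity) y0 ?_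
    rw [Real.log_rpow n0]
    linarith
  · refine le_of_log (by positivity) one_pos ?_
    rw [Real.log_mul (by norm_num) y0.ne', Real.log_one]
    linarith
  · by_cases hb : b = 0
    · rw [hb]
      norm_num
    · have hb2 : 0 < b ^ 2 := by positivity
      refine le_of_log (by positivity) (by norm_num) ?_
      have l4 : 0 ≤ Real.log 4 := Real.log_nonneg (by norm_num)
      rw [Real.log_mul (by positivity) hb2.ne', Real.log_pow, Real.log_pow]
      push_cast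
      linarith
  · unfold uE
    linarith
  · unfold uE
    linarith

/-- the a priori size at the window -/
theorem ap_kw {a0 b₁ q A b : ℝ} (hq : 0 < q) (hb : 0 < b) (hA : 1 ≤ A) (ha0 : a0 ≤ 1 / 6)
    (hb₁ : 100 * q < b₁) :
    ∀ᶠ n : ℕ in atTop, ∀ y V al s lam η : ℝ, KW a0 b₁ q A b n y V al s lam η →
      ∀ T, 0 < T → T ≤ 2 → ∀ S : Finset (Fin n), ∀ u ∈ Set.Icc (0 : ℝ) 1,
        ∀ g ∈ Set.Icc (0 : ℝ) 1,
      T * (lawOf n b y V al s lam η).rrg S (1 - T / 2) u g ≤ 24 / b ^ 2 * (n : ℝ) ^ q * y ^ 4 := by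
  filter_upwards [kw_par1 (a0 := a0) (b₁ := b₁) (b := b) hq hA ha0 hb₁,
    H412.U.q1g_ev (b := b) (e := 900 * q) (s0 := q / 2) (s1 := q) hb (by linarith) (by linarith)
      (by linarith)] with n e1 e2
  intro y V al s lam η h T T0 T1 S u hu g hg
  obtain ⟨p, k1, k2, k3, k4⟩ := e1 y V al s lam η h
  have h9 := (e2 (V - s ^ 2) s lam η y V al p k1 k2 (1 - T / 2) (by linarith) (by linarith)
    u hu g hg S).1
  have h10 := mul_le_mul_of_nonneg_left h9 T0.le
  refine h10.trans (le_of_eq ?_)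
  have : 1 - (1 - T / 2) = T / 2 := by ring
  rw [this]
  field_simp
  ring

/-- **N7 of the final version**: from the near end with hidden sites and hidden windows. -/
theorem n7U {a0 b₁ q A b : ℝ} {R : ℕ → ℝ → ℝ → ℝ → ℝ → ℝ → ℝ → Prop} (hq : 0 < q) (hb : 0 < b) (hA : 1 ≤ A) (ha0 : a0 ≤ 1 / 6)
    (hb₁ : 100 * q < b₁)
    (hne : ∀ᶠ n : ℕ in atTop, ∀ y V al s lam η : ℝ, KW a0 b₁ q A b n y V al s lam η →
      R n y V al s lam η → ∀ T, (n : ℝ) ^ (-(37 * q)) * y ^ 4 ≤ T →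
        T ≤ (n : ℝ) ^ (-(70 * q)) * y ^ 2 →
      ∃ (S : Finset (Fin n)) (u1 g1 : ℝ),
        (n - S.card : ℝ) ≤ 4 * (n : ℝ) ^ (-(40 * q)) * n * T ∧
        0 ≤ u1 ∧ u1 ≤ uE q n y (V - s ^ 2) ∧ 0 ≤ g1 ∧ g1 ≤ 1 ∧
        (V - s ^ 2) * (uE q n y (V - s ^ 2) - u1) ≤ eW q n y T ∧
        s ^ 2 * (1 - g1) ≤ eW q n y T ∧
        T * (lawOf n b y V al s lam η).rrg S (1 - T / 2) u1 g1 ≤
          1 / 2 * ((n : ℝ) ^ (-(37 * q)) * y ^ 4)) :
    ∀ᶠ n : ℕ in atTop, ∀ y V al s lam η : ℝ, KW a0 b₁ q A b n y V al s lam η →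
      R n y V al s lam η → ∀ T, (n : ℝ) ^ (-(37 * q)) * y ^ 4 ≤ T →
        T ≤ (n : ℝ) ^ (-(70 * q)) * y ^ 2 →
      T * (lawOf n b y V al s lam η).rrg (Finset.univ : Finset (Fin n)) (1 - T)
        (uE q n y (V - s ^ 2)) 1 ≤ (n : ℝ) ^ (-(37 * q)) * y ^ 4 := by
  refine n7_rrg hq hb (C := 24 / b ^ 2) (by positivity) hA ha0 hb₁ hne ?_
  filter_upwards [kw_par1 (a0 := a0) (b₁ := b₁) (b := b) hq hA ha0 hb₁,
    ap_kw (a0 := a0) (b₁ := b₁) (b := b) hq hb hA ha0 hb₁, eventually_ge_atTop 1] with n e1 e2 g2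
  intro y V al s lam η h _ T h1 h2
  obtain ⟨p, k1, k2, k3, k4⟩ := e1 y V al s lam η h
  have hn1 : (1 : ℝ) ≤ n := by exact_mod_cast g2
  have n0 : (0 : ℝ) < n := by linarith
  have y0 : 0 < y := h.y0
  have T0 : 0 < T := lt_of_lt_of_le (by positivity) h1
  have p1 : (n : ℝ) ^ (-(70 * q)) ≤ 1 := Real.rpow_le_one_of_one_le_of_nonpos hn1 (by linarith)
  have hy : y ≤ 1 := by linarith [p.y1]
  have T1 : T ≤ 1 := by
    refine h2.trans ?_
    have : y ^ 2 ≤ 1 := pow_le_one₀ y0.le hy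
    calc (n : ℝ) ^ (-(70 * q)) * y ^ 2 ≤ 1 * 1 := by gcongr
      _ = 1 := one_mul 1
  exact e2 y V al s lam η h T T0 (by linarith) Finset.univ _ ⟨k3, k4⟩ 1 ⟨zero_le_one, le_rfl⟩

/-- **N7 of the final version**, from the literal of NeFin: hidden sites `Sn n m2`, hidden windows
of size `eW` (the modulated field is hidden if the window is larger than `s ^ 2`). -/
theorem n7_fin {a0 b₁ q A b : ℝ} (hq : 0 < q) (hb : 0 < b) (hA : 1 ≤ A) (ha0 : a0 ≤ 1 / 6)
    (hb₁ : 100 * q < b₁)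
    (hne : ∀ᶠ n : ℕ in atTop, ∀ y V al s lam η : ℝ, KW a0 b₁ q A b n y V al s lam η →
      (n : ℝ) ^ (-(80 * q)) * V ≤ A * s ^ 2 →
      ∀ T, (n : ℝ) ^ (-(37 * q)) * y ^ 4 ≤ T → T ≤ (n : ℝ) ^ (-(70 * q)) * y ^ 2 →
      T * (lawOf n b y V al s lam η).rrg (Sn n (2 * ⌈(n : ℝ) ^ (-(40 * q)) * (n * T)⌉₊))
        (1 - T / 2) (1 - ((n : ℝ) ^ (-(37 * q)) * y ^ 4 +
          (n : ℝ) ^ (-(38 * q)) * y ^ 2 * √T) / (V - s ^ 2))
        (max 0 (1 - (n : ℝ) ^ (-(38 * q)) * y ^ 2 * √T / s ^ 2)) ≤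
          1 / 2 * ((n : ℝ) ^ (-(37 * q)) * y ^ 4)) :
    ∀ᶠ n : ℕ in atTop, ∀ y V al s lam η : ℝ, KW a0 b₁ q A b n y V al s lam η →
      (n : ℝ) ^ (-(80 * q)) * V ≤ A * s ^ 2 →
      ∀ T, (n : ℝ) ^ (-(37 * q)) * y ^ 4 ≤ T → T ≤ (n : ℝ) ^ (-(70 * q)) * y ^ 2 →
      T * (lawOf n b y V al s lam η).rrg (Finset.univ : Finset (Fin n)) (1 - T)
        (uE q n y (V - s ^ 2)) 1 ≤ (n : ℝ) ^ (-(37 * q)) * y ^ 4 := by
  refine n7U (R := fun n y V al s lam η => (n : ℝ) ^ (-(80 * q)) * V ≤ A * s ^ 2) hq hb hA ha0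
    hb₁ ?_
  filter_upwards [hne, env_ev (a0 := a0) (b₁ := b₁) (d := 24 * q)
    (10 * |Real.log b| + 10 * |Real.log A| + 10000) hq hA,
    kw_par1 (a0 := a0) (b₁ := b₁) (b := b) hq hA ha0 hb₁] with n e1 e3 e4
  intro y V al s lam η h hR T h1 h2
  have k9 := e1 y V al s lam η h hR T h1 h2
  obtain ⟨p, hvp0, -, -, -⟩ := e4 y V al s lam η h
  obtain ⟨n0, y0, V0, L1, qL, cst, ll, yl, yu, Vl, Vu⟩ := e3 y V h.yl h.yu h.Vl h.Vu
  have s0 := h.s0
  have c2 : Real.log A ≤ |Real.log A| := le_abs_self _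
  have a1 := abs_nonneg (Real.log b)
  have a2 := abs_nonneg (Real.log A)
  have hL0 : 0 ≤ Real.log n := by linarith
  have hb1 : 100 * (q * Real.log n) ≤ b₁ * Real.log n := by
    have := mul_le_mul_of_nonneg_right hb₁.le hL0
    linarith
  have ha1 : a0 * Real.log n ≤ 1 / 6 * Real.log n := mul_le_mul_of_nonneg_right ha0 hL0
  have d1 : ∀ c : ℝ, 0 < c → c ≤ 1000 → Real.log c ≤ 1000 := fun c h0 h9 =>
    (Real.log_le_sub_one_of_pos h0).trans (by linarith)
  have l2 := d1 2 (by norm_num) (by norm_num)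
  have l4 := d1 4 (by norm_num) (by norm_num)
  have T0 : 0 < T := lt_of_lt_of_le (by positivity) h1
  have hT1 := Real.log_le_log (by positivity) h1
  have hT2 := Real.log_le_log T0 h2
  simp (disch := positivity) only [Real.log_mul, Real.log_rpow, Real.log_pow] at hT1 hT2
  push_cast at hT1 hT2
  have hs2 : s ^ 2 ≤ V / 2 := by
    refine h.s2.trans (le_of_log (by positivity) (by positivity) ?_)
    simp (disch := positivity) only [Real.log_mul, Real.log_rpow, Real.log_div]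
    linarith
  have hvp : V / 2 ≤ V - s ^ 2 := by linarith
  have w0 : 0 ≤ (n : ℝ) ^ (-(38 * q)) * y ^ 2 * √T := by positivity
  have hw : (n : ℝ) ^ (-(38 * q)) * y ^ 2 * √T ≤ V / 4 := by
    refine le_of_log (by positivity) (by positivity) ?_
    simp (disch := positivity) only [Real.log_mul, Real.log_rpow, Real.log_pow, Real.log_div,
      Real.log_sqrt]
    push_cast
    linarith
  have hw2 : (n : ℝ) ^ (-(37 * q)) * y ^ 4 ≤ V / 4 := by
    refine le_of_log (by positivity) (by positivity) ?_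
    simp (disch := positivity) only [Real.log_mul, Real.log_rpow, Real.log_pow, Real.log_div]
    push_cast
    linarith
  have hx1 : 1 ≤ (n : ℝ) ^ (-(40 * q)) * (n * T) := by
    refine le_of_log one_pos (by positivity) ?_
    simp (disch := positivity) only [Real.log_mul, Real.log_rpow, Real.log_one]
    linarith
  have hm : (n : ℝ) - (Sn n (2 * ⌈(n : ℝ) ^ (-(40 * q)) * (n * T)⌉₊)).card ≤
      4 * (n : ℝ) ^ (-(40 * q)) * n * T := by
    set m := 2 * ⌈(n : ℝ) ^ (-(40 * q)) * (n * T)⌉₊ with hmd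
    have g1 : (n : ℝ) - (Sn n m).card ≤ m := by
      rcases le_total m n with hm | hm
      · rw [H698.card_Sn hm]
        linarith
      · have : (n : ℝ) ≤ m := by exact_mod_cast hm
        have h0 : (0 : ℝ) ≤ (Sn n m).card := Nat.cast_nonneg _
        linarith
    have g2 : (m : ℝ) ≤ 4 * (n : ℝ) ^ (-(40 * q)) * n * T := by
      have g3 := Nat.ceil_lt_add_one (show 0 ≤ (n : ℝ) ^ (-(40 * q)) * (n * T) by positivity)
      rw [hmd]
      push_cast
      linarith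
    exact g1.trans g2
  refine ⟨Sn n (2 * ⌈(n : ℝ) ^ (-(40 * q)) * (n * T)⌉₊), _, _, hm, ?_, ?_, ?_, ?_, ?_, ?_, k9⟩
  · have : ((n : ℝ) ^ (-(37 * q)) * y ^ 4 + (n : ℝ) ^ (-(38 * q)) * y ^ 2 * √T) /
        (V - s ^ 2) ≤ 1 := by
      rw [div_le_one hvp0]
      linarith
    linarith
  · unfold uE
    have : (n : ℝ) ^ (-(37 * q)) * y ^ 4 / (V - s ^ 2) ≤
        ((n : ℝ) ^ (-(37 * q)) * y ^ 4 + (n : ℝ) ^ (-(38 * q)) * y ^ 2 * √T) / (V - s ^ 2) := by
      gcongr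
      linarith
    linarith
  · exact le_max_left _ _
  · refine max_le zero_le_one ?_
    have : 0 ≤ (n : ℝ) ^ (-(38 * q)) * y ^ 2 * √T / s ^ 2 := by positivity
    linarith
  · unfold uE eW
    have e : (V - s ^ 2) * (1 - (n : ℝ) ^ (-(37 * q)) * y ^ 4 / (V - s ^ 2) -
        (1 - ((n : ℝ) ^ (-(37 * q)) * y ^ 4 + (n : ℝ) ^ (-(38 * q)) * y ^ 2 * √T) /
          (V - s ^ 2))) = (n : ℝ) ^ (-(38 * q)) * y ^ 2 * √T := by
      have := hvp0.ne'
      field_simp
      ring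
    rw [e]
  · unfold eW
    have g1 : 1 - (n : ℝ) ^ (-(38 * q)) * y ^ 2 * √T / s ^ 2 ≤
        max 0 (1 - (n : ℝ) ^ (-(38 * q)) * y ^ 2 * √T / s ^ 2) := le_max_right _ _
    have hs : 0 < s ^ 2 := by positivity
    have g2 := mul_le_mul_of_nonneg_left g1 hs.le
    have g3 : s ^ 2 * (1 - (n : ℝ) ^ (-(38 * q)) * y ^ 2 * √T / s ^ 2) =
        s ^ 2 - (n : ℝ) ^ (-(38 * q)) * y ^ 2 * √T := by
      field_simp
    rw [g3] at g2
    linarith

end Vale.Agent.P146.H442.U
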