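import Vale.Agent.P146.H442.TypLU
import Vale.Agent.P146.H585.NeU
import Vale.Agent.P146.H646.XrU
import Vale.Agent.P146.H463.SizeU

/-!
# P146: the numbers of a level system of the ensemble U in the letters of one law

Any level system with the shares `t`, `u` (plain), `g` (modulated):

* `mods_L`, `pl_L`, `sum_Lm`, `sum_LmF`, `sum_FP`, `sum_FLr`, `sum_all`;
* `QsU_L : QsU = L.fag`, `R2U_L : R2U = n² eG CCg`, `X2U_L : X2U = rxT`, `X2U_le`.
-/

open MeasureTheory ProbabilityTheory Set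

namespace Vale.Agent.P146.H442

open Vale.Agent.P157.Lv hiding Dep
open Vale.Agent.P146.H425 Vale.Agent.P146.H646
open Vale.Agent.P146.H196 Vale.Agent.P146.H246 Vale.Agent.P146.H347 Vale.Agent.P146.H325
  Vale.Agent.P146.H816 Vale.Agent.P146.H119 Vale.Agent.P146.H475 Vale.Agent.P146.H418
open Vale.Agent.P146.H281.U Vale.Agent.P146.H9.U Vale.Agent.P146.H698.Br
  Vale.Agent.P146.H320 Vale.Agent.P146.H585.U Vale.Agent.P146.H347.U
open Vale.Agent.P146.H698 hiding ShU
open Vale.Agent.P146.H412.G (eG cG CCg)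

set_option linter.unusedSectionVars false

variable (L : Law) {LB LF : Type} [Fintype LB] [DecidableEq LB] [Fintype LF]
  [DecidableEq LF] {t u g : ℝ} {cB : LB → ℝ} {cF : LF → ℝ}
  {κ : LF → Bool} {S : Finset (Fin L.n)} {BL : Finset LB} {FL : Finset LF}

/-- the modulated levels -/
def Lmd (κ : LF → Bool) : Finset LF := Finset.univ.filter fun l => κ l = true

/-- the plain levels -/
def Lpl (κ : LF → Bool) : Finset LF := Finset.univ.filter fun l => κ l = false

lemma mods_L (κ : LF → Bool) :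
    Mods (fun l (θ : Unit → ℝ) => αb L.η (κ l) (θ ())) L.η () (Lmd κ) where
  on l hl θ := by
    have h := (Finset.mem_filter.1 hl).2
    show αb L.η (κ l) (θ ()) = al L.η (θ ())
    rw [h]
    unfold αb
    exact if_pos rfl
  off l hl θ r := by
    have h : κ l = false := by
      by_contra h
      exact hl (Finset.mem_filter.2 ⟨Finset.mem_univ _, by simpa using h⟩)
    show αb L.η (κ l) _ = αb L.η (κ l) _
    rw [h]
    unfold αb
    simp

lemma pl_L (κ : LF → Bool) : ∀ l ∈ Lpl κ, ∀ θ : Unit → ℝ, αb L.η (κ l) (θ ()) = 1 := by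
  intro l hl θ
  rw [(Finset.mem_filter.1 hl).2]
  unfold αb
  simp

section sums

variable {L} (hs : ShU κ cB cF BL FL (VFb L.vp L.s) t (ub u g))
include hs

lemma sum_Lm : ∑ l ∈ Lmd κ, cF l ^ 2 = L.s ^ 2 := hs.totF true

lemma sum_Lp : ∑ l ∈ Lpl κ, cF l ^ 2 = L.vp := hs.totF false

lemma sum_LmF : ∑ l ∈ (Lmd κ).filter (· ∈ FL), cF l ^ 2 = g * L.s ^ 2 := by
  have h := hs.shF true
  have e : ((Lmd κ).filter (· ∈ FL)) = FL.filter fun l => κ l = true := by
    ext l
    simp only [Lmd, Finset.mem_filter, Finset.mem_univ, true_and]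
    exact and_comm
  rw [e]
  exact h

lemma sum_FP : ∑ l ∈ FL ∩ Lpl κ, cF l ^ 2 = u * L.vp := by
  have h := hs.shF false
  have e : (FL ∩ Lpl κ) = FL.filter fun l => κ l = false := by
    ext l
    simp only [Lpl, Finset.mem_filter, Finset.mem_inter, Finset.mem_univ, true_and]
  rw [e]
  exact h

lemma sum_FLr : ∑ l ∈ FL, cF l ^ 2 = u * L.vp + g * L.s ^ 2 := by
  have h1 := sum_FP hs
  have h2 := sum_LmF hs
  have e := Finset.sum_filter_add_sum_filter_not FL (fun l => κ l = false) fun l => cF l ^ 2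
  have e1 : FL.filter (fun l => κ l = false) = FL ∩ Lpl κ := by
    ext l
    simp only [Lpl, Finset.mem_filter, Finset.mem_inter, Finset.mem_univ, true_and]
  have e2 : FL.filter (fun l => ¬ κ l = false) = (Lmd κ).filter (· ∈ FL) := by
    ext l
    simp only [Lmd, Finset.mem_filter, Finset.mem_univ, true_and, Bool.not_eq_false]
    exact and_comm
  rw [e1, e2, h1, h2] at e
  exact e.symm

lemma sum_all : ∑ l, cF l ^ 2 = L.vp + L.s ^ 2 := by
  have h1 := sum_Lp hs
  have h2 := sum_Lm hs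
  have e := Finset.sum_filter_add_sum_filter_not Finset.univ (fun l => κ l = false)
    fun l => cF l ^ 2
  have e2 : Finset.univ.filter (fun l => ¬ κ l = false) = Lmd κ := by
    ext l
    simp [Lmd]
  rw [e2, h2] at e
  have h3 : ∑ l with κ l = false, cF l ^ 2 = L.vp := h1
  rw [h3] at e
  exact e.symm

end sums

/-- the amplitude of the modulated class -/
lemma aL_true : (fun θ : Unit → ℝ => al L.η (θ ())) = aL L true := by
  funext θ
  unfold aL αb
  exact (if_pos rfl).symm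

section numb

variable {L} (hl : 0 < L.lam) (hη : 0 ≤ L.η)
include hl hη

/-- the sum of the squares of the pairs -/
lemma R2U_L (hn : 0 < L.n) (cB : LB → ℝ) (cF : LF → ℝ) (κ : LF → Bool)
    (K : Finset (Co L.n LB LF)) (S : Finset (Fin L.n)) :
    R2U L.n L.nuL L.b cB cF (fun l θ => αb L.η (κ l) (θ ())) L.x K S =
      (L.n : ℝ) ^ 2 * eG (muU L.nuL L.n) (SU L.b cB cF fun l θ => αb L.η (κ l) (θ ())) L.x
        (CCg (muU L.nuL L.n) (SU L.b cB cF fun l θ => αb L.η (κ l) (θ ())) L.x Prod.snd K S) := by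
  have hn0 : (L.n : ℝ) ≠ 0 := by exact_mod_cast hn.ne'
  have hw := wtU (n := L.n) (LB := LB) L.b cB cF (nuL_fin L hl hη) (nuL_ne L hl hη)
    (amU_L L hη κ) L.x
  have hG := gmU (n := L.n) L.b cB cF L.η (nuL_fin L hl hη) (nuL_ne L hl hη) (amU_L L hη κ)
  have bt : ∀ j : Fin L.n, Bm fun w : (Unit → ℝ) × Xs L.n => sp w.2 j :=
    fun j => H347.U.bm_spU j
  have bX : ∀ j l : Fin L.n, BM (cxU L.n L.nuL L.b cB cF (fun l θ => αb L.η (κ l) (θ ())) L.x K
      (avU L.n L.nuL L.b cB cF (fun l θ => αb L.η (κ l) (θ ()))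
        (fun w => sp w.2 j * sp w.2 l))) := fun j l =>
    hw.bm_cx _ (H347.bm hG 1 ((bt j).mul (bt l)))
  unfold R2U
  have e1 : (CCg (muU L.nuL L.n) (SU L.b cB cF fun l θ => αb L.η (κ l) (θ ())) L.x
      Prod.snd K S) = fun z => 1 / (L.n : ℝ) ^ 2 * ∑ j ∈ S, ∑ l ∈ S,
        cxU L.n L.nuL L.b cB cF (fun l θ => αb L.η (κ l) (θ ())) L.x K
      (avU L.n L.nuL L.b cB cF (fun l θ => αb L.η (κ l) (θ ()))
        (fun w => sp w.2 j * sp w.2 l)) z ^ 2 := by
    funext z
    unfold CCg H463.F2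
    rw [div_eq_mul_one_div, mul_comm]
    rfl
  rw [e1]
  unfold eG
  rw [H615.ex_cmul, ← mul_assoc, mul_one_div_cancel (pow_ne_zero 2 hn0), one_mul]
  rw [hw.ex_sum S fun j _ => BM.sum S fun l _ => (bX j l).sq]
  refine Finset.sum_congr rfl fun j _ => ?_
  rw [hw.ex_sum S fun l _ => (bX j l).sq]
  rfl

/-- the mean square of the magnetisations -/
lemma QsU_L (hv : 0 ≤ L.vp) (hs : ShU κ cB cF BL FL (VFb L.vp L.s) t (ub u g)) (ht0 : 0 ≤ t)
    (ht1 : t ≤ 1) (hu0 : 0 ≤ u) (hu1 : u ≤ 1) (hg0 : 0 ≤ g) (hg1 : g ≤ 1)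
    (S : Finset (Fin L.n)) :
    QsU L.n L.nuL L.b cB cF (fun l θ => αb L.η (κ l) (θ ())) L.x (Kset S BL FL)
      (fun θ => al L.η (θ ())) S = L.fag S t u g := by
  rw [← QA1_can L hl hη hv hs ht0 ht1 hu0 hu1 hg0 hg1 S]
  rfl

/-- the response energy -/
lemma X2U_L (hv : 0 < L.vp) (hs0 : 0 < L.s)
    (hs : ShU κ cB cF BL FL (VFb L.vp L.s) t (ub u g)) (S : Finset (Fin L.n)) :
    X2U L.n L.nuL L.b cB cF (fun l θ => αb L.η (κ l) (θ ())) L.x (Kset S BL FL)
      (fun θ => al L.η (θ ())) S =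
    rxT L.n L.nuL L.b (aL L) L.x cB cF (fun l => aL L (κ l)) true S (Kset S BL FL) := by
  have hV : ∀ k, 0 < VFb L.vp L.s k := fun k => by
    cases k
    · exact hv
    · exact pow_pos hs0 2
  obtain ⟨M0, hG⟩ := gm_L L hl hη
  have hG1 := gmU (n := L.n) L.b cB cF L.η (nuL_fin L hl hη) (nuL_ne L hl hη) (amU_L L hη κ)
  have hr : Measurable (aL L true) := (amU_L L hη id).meas true
  have hC : ∀ θ, |aL L true θ| ≤ 1 + L.η := fun θ => by
    have h2 : |aL L true θ - 1| ≤ L.η := (amU_L L hη id).bd true θ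
    have h3 := abs_le.1 h2
    rw [abs_le]
    constructor <;> linarith [h3.1, h3.2]
  rw [aL_true]
  rw [H646.x2U_eq (κ := κ) (α := aL L) (t := t) (u := ub u g) hG hG1 hV hs true hr hC S]
  exact (H118.rxU_eq hG hG1 hV hs L.x true S).symm

end numb

end Vale.Agent.P146.H442
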