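import Vale.Agent.P146.H119.KPathSK

/-!
# P146: the bridge between the full revealed set and a revealed set with hidden sites (NEBR)

`lev_bridge`: two orders of the chain rule. For `BL ⊆ BL'` the energy of the bonds at
`Kset univ BL FL` is bounded by the energy of the bonds inside `S` at `Kset S BL' FL`, up to the
rows of the `n - |S|` hidden sites.

`bridge`: the modulated SK system, in terms of `Q2`, `Q1`, `shr` of `H119.KPathSK`.

`Q2_dbl`: `|S| + 2 Q2 S K` is the double sum over `S` of the squares of the conditional means.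
-/

open MeasureTheory ProbabilityTheory

namespace Vale.Agent.P146.H442

open Vale.Agent.P157.Lv hiding Dep
open Vale.Agent.P146.H425 Vale.Agent.P146.H646 Vale.Agent.P146.H119
open Vale.Agent.P146.H347 Vale.Agent.P146.H816 Vale.Agent.P146.H325

set_option linter.unusedSectionVars false

variable {n : ℕ} {LB LF : Type} [Fintype LB] [DecidableEq LB] [Fintype LF] [DecidableEq LF]

lemma card_compl_real (S : Finset (Fin n)) : ((Sᶜ).card : ℝ) = n - S.card := by
  rw [Finset.card_compl, Fintype.card_fin,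
    Nat.cast_sub (by simpa using Finset.card_le_univ S)]

section lev

variable {F : (Co n LB LF → ℝ) → ℝ} {D : Co n LB LF → (Co n LB LF → ℝ) → ℝ} {B L : ℝ}
  {cb : LB → ℝ} {cf : LF → ℝ} {A2 : Pair n → (Co n LB LF → ℝ) → ℝ}
  {A1 : Fin n → (Co n LB LF → ℝ) → ℝ} {x : ℝ} {S : Finset (Fin n)} {BL BL' : Finset LB}
  {FL : Finset LF}

/-- two orders of the chain rule, levelled functional -/
theorem lev_bridge (h : Lev F D B L cb cf A2 A1) (hx : 0 < x) (hn : 0 < n) (hB : BL ⊆ BL') :
    (sh cb BL' - sh cb BL) * q2 x F A2 Finset.univ (Kset Finset.univ BL FL) ≤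
      (sh cb BL' - sh cb BL) * q2 x F A2 S (Kset S BL' FL) +
      sh cb BL' * (2 * (n - S.card) / n * q2 x F A2 Finset.univ (Kset Finset.univ BL' FL)) +
      sh cf FL * ((n - S.card) / n * q1 x F A1 Finset.univ (Kset Finset.univ BL' FL)) := by
  have hn' : (0 : ℝ) < n := Nat.cast_pos.2 hn
  have h1 := h.le_stage (S := Finset.univ) hx hB (Finset.Subset.refl FL)
  have h2 := h.rows_up (S := S) (BL := BL') (FL := FL) hx
  have h3 := h.stage_le (S := S) hx hB (Finset.Subset.refl FL)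
  have h4 := ent_mono h.lip x (Kset_mono (Finset.subset_univ S) (Finset.Subset.refl BL)
    (Finset.Subset.refl FL))
  set K1 : Finset (Co n LB LF) := Kset Finset.univ BL' FL with hK1
  have hs : ∀ (π : Equiv.Perm (Fin n)) e, cP LB LF π e ∈ K1 ↔ e ∈ K1 :=
    fun π e => cP_memK π (fun _ => iff_of_true (Finset.mem_univ _) (Finset.mem_univ _)) e
  have h5 := sum_const_sites (f := fun i => en x F (A1 i) K1)
    (fun π i => h.en1 x π (hs π) i) Sᶜ
  have h6 := sum_touch (f := fun p => en x F (A2 p) K1) (fun π p => h.en2 x π (hs π) p)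
    (fun p => en_nonneg h.lip x (A2 p) K1) S
  have h7 : q1 x F A1 Finset.univ K1 - q1 x F A1 S K1 = ∑ i ∈ Sᶜ, en x F (A1 i) K1 := by
    unfold q1
    rw [← Finset.sum_add_sum_compl S]
    ring
  have h8 : ∑ p, en x F (A2 p) K1 = q2 x F A2 Finset.univ K1 := by
    unfold q2
    rw [ps_univ]
  rw [card_compl_real] at h5
  rw [h8] at h6
  have b1 : q1 x F A1 Finset.univ K1 - q1 x F A1 S K1 =
      (n - S.card) / n * q1 x F A1 Finset.univ K1 := by
    rw [h7, div_mul_eq_mul_div, eq_div_iff hn'.ne', mul_comm, h5]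
    rfl
  have b2 : q2 x F A2 Finset.univ K1 - q2 x F A2 S K1 ≤
      2 * (n - S.card) / n * q2 x F A2 Finset.univ K1 := by
    rw [div_mul_eq_mul_div, le_div_iff₀ hn', mul_comm]
    exact h6
  have x2 : 0 < x ^ 2 / 2 := by positivity
  rw [b1] at h2
  have c1 := mul_le_mul_of_nonneg_left b2 (sh_nonneg cb BL')
  simp only [sub_self, zero_mul, add_zero] at h1 h3
  have h9 : x ^ 2 / 2 * ((sh cb BL' - sh cb BL) * q2 x F A2 Finset.univ
      (Kset Finset.univ BL FL)) ≤ x ^ 2 / 2 * ((sh cb BL' - sh cb BL) *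
        q2 x F A2 S (Kset S BL' FL) +
      sh cb BL' * (2 * (n - S.card) / n * q2 x F A2 Finset.univ K1) +
      sh cf FL * ((n - S.card) / n * q1 x F A1 Finset.univ K1)) := by
    have h10 := mul_le_mul_of_nonneg_left c1 x2.le
    rw [mul_add] at h2
    rw [mul_add, mul_add]
    linarith
  exact le_of_mul_le_mul_left h9 x2

end lev

/-! ### the modulated SK system -/

section sk

open Vale.Agent.P146.H196 Vale.Agent.P146.H475

variable (b : ℝ) (cB : LB → ℝ) (cF : LF → ℝ) (s : ℝ) {lam η : ℝ} (c : ℝ) {x : ℝ}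
  {S : Finset (Fin n)} {BL BL' : Finset LB} {FL : Finset LF}

lemma Q1_le (hl : 0 < lam) (hη : 0 ≤ η) (x : ℝ) (S : Finset (Fin n))
    (K : Finset (Co n LB LF)) : Q1 n b cB cF s lam η c x S K ≤ S.card := by
  have hG := gmA (n := n) b cB cF s hl hη c
  have h := lev_sk (n := n) b cB cF s c hl hη
  rw [← q1_eq b cB cF s c hl hη]
  unfold q1
  have h1 : ∀ i ∈ S, en x (Fm n b cB cF s lam η c) (avm (muA (Xs n) lam η c) 1
      (Sm b cB cF s η) fun w => sp w.2 i) K ≤ 1 := by
    intro i _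
    refine en_le h.lip x (h.b1 i) (fun z => ?_) K
    have h1 := hG.abs_av_le 1 (bm_sp (n := n) i).meas (C := 1) (fun w => (abs_sp w.2 i).le) z
    rw [← sq_abs]
    nlinarith [abs_nonneg (avm (muA (Xs n) lam η c) 1 (Sm b cB cF s η) (fun w => sp w.2 i) z)]
  refine (Finset.sum_le_card_nsmul _ _ _ h1).trans (le_of_eq ?_)
  rw [nsmul_eq_mul, mul_one]

/-- **The bridge**, general levels: `m = n - |S|` hidden sites. -/
theorem bridge (hl : 0 < lam) (hη : 0 ≤ η) (hx : 0 < x) (hb : b ≠ 0) (hn : 0 < n)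
    (hB : BL ⊆ BL') :
    (shr cB BL' - shr cB BL) *
        Q2 n b cB cF s lam η c x Finset.univ (Kset Finset.univ BL FL) ≤
      (shr cB BL' - shr cB BL) * Q2 n b cB cF s lam η c x S (Kset S BL' FL) +
      2 * (n - S.card) / n * shr cB BL' *
        Q2 n b cB cF s lam η c x Finset.univ (Kset Finset.univ BL' FL) +
      (n - S.card) / b ^ 2 * shr cF FL *
        Q1 n b cB cF s lam η c x Finset.univ (Kset Finset.univ BL' FL) := by
  have hn' : (0 : ℝ) < n := Nat.cast_pos.2 hn
  have hb2 : 0 < b ^ 2 := by positivity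
  have h := lev_bridge (lev_sk (n := n) b cB cF s c hl hη) hx hn hB (S := S) (FL := FL)
  simp only [sh_bond, q2_eq b cB cF s c hl hη, q1_eq b cB cF s c hl hη] at h
  have h1 : sh cF FL = shr cF FL := rfl
  rw [h1] at h
  have h2 := mul_le_mul_of_nonneg_left h (show 0 ≤ n / b ^ 2 by positivity)
  refine le_trans (le_of_eq ?_) (h2.trans (le_of_eq ?_))
  · field_simp
  · field_simp

/-- the double sum over `S` in terms of the pairs inside `S` -/
lemma dbl_eq (S : Finset (Fin n)) {f : Fin n → Fin n → ℝ} {g : Pair n → ℝ}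
    (hf : ∀ i, f i i = 1) (hg : ∀ i, ∀ p ∈ row i, g p = f i (oth i p)) :
    ∑ i ∈ S, ∑ j ∈ S, f i j = S.card + 2 * ∑ p ∈ ps S, g p := by
  have h1 : ∀ i ∈ S, ∑ j ∈ S, f i j = 1 + ∑ p ∈ row i, if p ∈ ps S then g p else 0 := by
    intro i hi
    rw [← Finset.add_sum_erase S _ hi, hf]
    congr 1
    have h2 : ∑ p ∈ row i, (if p ∈ ps S then g p else 0) =
        ∑ p ∈ row i, if oth i p ∈ S then f i (oth i p) else 0 := by
      refine Finset.sum_congr rfl fun p hp => ?_
      have h3 : p ∈ ps S ↔ oth i p ∈ S := by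
        rw [mem_ps]
        rw [mem_row] at hp
        unfold oth
        constructor
        · rintro ⟨h4, h5⟩
          split_ifs
          exacts [h5, h4]
        · intro h4
          split_ifs at h4 with h5
          · exact ⟨by rw [h5]; exact hi, h4⟩
          · have h6 := hp.resolve_left h5
            exact ⟨h4, by rw [h6]; exact hi⟩
      simp only [h3, hg i p hp]
    rw [h2, sum_row (G := fun j => if j ∈ S then f i j else 0), ← Finset.sum_filter]
    refine Finset.sum_congr ?_ fun _ _ => rfl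
    ext j
    simp [and_comm]
  rw [Finset.sum_congr rfl h1, Finset.sum_add_distrib, Finset.sum_const, nsmul_eq_mul, mul_one]
  congr 1
  have h7 : ∑ i ∈ S, ∑ p ∈ row i, (if p ∈ ps S then g p else 0) =
      ∑ i, ∑ p ∈ row i, (if p ∈ ps S then g p else 0) := by
    refine Finset.sum_subset (Finset.subset_univ S) fun i _ hi => ?_
    refine Finset.sum_eq_zero fun p hp => ?_
    rw [if_neg]
    rw [mem_ps]
    rw [mem_row] at hp
    rintro ⟨h8, h9⟩
    rcases hp with hp | hp
    · exact hi (hp ▸ h8)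
    · exact hi (hp ▸ h9)
  rw [h7, H119.sum_rows, ← Finset.sum_filter]
  congr 1
  refine Finset.sum_congr ?_ fun _ _ => rfl
  ext p
  simp

lemma cx_av_one (hl : 0 < lam) (hη : 0 ≤ η) (x : ℝ) (K : Finset (Co n LB LF))
    (i : Fin n) (z : Co n LB LF → ℝ) :
    cx (g1 _) K (Zxm (muA (Xs n) lam η c) 1 (Sm b cB cF s η) x)
      (avm (muA (Xs n) lam η c) 1 (Sm b cB cF s η) fun w => sp w.2 i * sp w.2 i) z = 1 := by
  have hw := wtA (n := n) b cB cF s hl hη c x
  have h1 : (avm (muA (Xs n) lam η c) 1 (Sm b cB cF s η) fun w => sp w.2 i * sp w.2 i :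
      (Co n LB LF → ℝ) → ℝ) = fun _ => 1 := by
    funext z
    simp only [sp_mul_self]
    exact (gmA (n := n) b cB cF s hl hη c).av_one 1 z
  rw [h1]
  exact cx_one hw z

/-- **Pairs and double sums.** -/
theorem Q2_dbl (hl : 0 < lam) (hη : 0 ≤ η) (x : ℝ) (S : Finset (Fin n))
    (K : Finset (Co n LB LF)) :
    S.card + 2 * Q2 n b cB cF s lam η c x S K =
      ex (g1 _) (Zxm (muA (Xs n) lam η c) 1 (Sm b cB cF s η) x) fun z =>
        ∑ i ∈ S, ∑ j ∈ S, cx (g1 _) K (Zxm (muA (Xs n) lam η c) 1 (Sm b cB cF s η) x)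
          (avm (muA (Xs n) lam η c) 1 (Sm b cB cF s η) fun w => sp w.2 i * sp w.2 j) z ^ 2 := by
  have hw := wtA (n := n) b cB cF s hl hη c x
  have h := lev_sk (n := n) b cB cF s c hl hη
  have b1 : BM fun z => ∑ p ∈ ps S,
      cx (g1 _) K (Zxm (muA (Xs n) lam η c) 1 (Sm b cB cF s η) x)
      (avm (muA (Xs n) lam η c) 1 (Sm b cB cF s η) fun w => SkS p w.2) z ^ 2 :=
    BM.sum _ fun p _ => (hw.bm_cx K (h.b2 p)).sq
  have h1 : (fun z => ∑ i ∈ S, ∑ j ∈ S,
      cx (g1 _) K (Zxm (muA (Xs n) lam η c) 1 (Sm b cB cF s η) x)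
      (avm (muA (Xs n) lam η c) 1 (Sm b cB cF s η) fun w => sp w.2 i * sp w.2 j) z ^ 2) =
      fun z => (S.card : ℝ) + 2 * ∑ p ∈ ps S,
        cx (g1 _) K (Zxm (muA (Xs n) lam η c) 1 (Sm b cB cF s η) x)
        (avm (muA (Xs n) lam η c) 1 (Sm b cB cF s η) fun w => SkS p w.2) z ^ 2 := by
    funext z
    refine dbl_eq S (fun i => ?_) fun i p hp => ?_
    · rw [cx_av_one b cB cF s c hl hη x K i z, one_pow]
    · have h2 : (fun w : ℝ × Xs n => SkS p w.2) = fun w => sp w.2 i * sp w.2 (oth i p) := by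
        funext w
        rw [SkS_oth hp]
        rfl
      rw [h2]
  rw [h1, hw.ex_add (BM.const _) ((BM.const 2).mul b1), hw.ex_const_mul]
  unfold Q2
  congr 1
  have h3 := hw.ex_const_mul (Ψ := fun _ => (1 : ℝ)) (S.card : ℝ)
  simp only [mul_one] at h3
  rw [h3, hw.ex_one, mul_one]

end sk

end Vale.Agent.P146.H442
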