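import Vale.Agent.P146.H442.NeBr
import Vale.Agent.P146.H119.KPathU
import Vale.Agent.P146.H9.MonoU

/-!
# P146: the near end bridge in the ensemble `U`

`levU_bridge`, `bridgeU`: two orders of the chain rule. `BL ⊆ BL'` bond levels, `FL' ⊆ FL` field
levels (plain or modulated): the energy of the bonds at `Kset univ BL FL` is bounded by the energy
of the bonds inside `S` at `Kset S BL' FL'`, up to the rows of the hidden sites and the energy of
the field levels of `FL \ FL'` at `Kset univ BL' FL`.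

`p2U`, `p1U`: the numbers of the canonical two-level system, as functions of the shares;
`QU2_sh`, `QU1_sh`: every system with the same shares has the same numbers;
`can_bridgeU`, `rr_bridgeU`: the bridge for the canonical numbers.
-/

open MeasureTheory ProbabilityTheory

namespace Vale.Agent.P146.H442.U

open Vale.Agent.P157.Lv hiding Dep
open Vale.Agent.P146.H425 Vale.Agent.P146.H646 Vale.Agent.P146.H119
open Vale.Agent.P146.H347 Vale.Agent.P146.H816 Vale.Agent.P146.H325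

set_option linter.unusedSectionVars false

variable {n : ℕ} {LB LF : Type} [Fintype LB] [DecidableEq LB] [Fintype LF] [DecidableEq LF]

section lev

variable {F : (Co n LB LF → ℝ) → ℝ} {D : Co n LB LF → (Co n LB LF → ℝ) → ℝ} {B L : ℝ}
  {cb : LB → ℝ} {cf : LF → ℝ} {sg : ℝ} {A2 : Pair n → (Co n LB LF → ℝ) → ℝ}
  {A1 : LF → Fin n → (Co n LB LF → ℝ) → ℝ} {A0 : Fin n → (Co n LB LF → ℝ) → ℝ} {x : ℝ}
  {S : Finset (Fin n)} {BL BL' : Finset LB} {FL FL' : Finset LF}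

/-- two orders of the chain rule, several amplitudes -/
theorem levU_bridge (h : LevU F D B L cb cf sg A2 A1 A0) (hx : 0 < x) (hn : 0 < n)
    (hB : BL ⊆ BL') (hF : FL' ⊆ FL) :
    sh cb (BL' \ BL) * q2 x F A2 Finset.univ (Kset Finset.univ BL FL) ≤
      sh cb (BL' \ BL) * q2 x F A2 S (Kset S BL' FL') +
      sh cb BL' * (2 * ((n - S.card : ℝ) / n)) *
        q2 x F A2 Finset.univ (Kset Finset.univ BL' FL) +
      (q1s x F cf A1 (FL \ FL') Finset.univ (Kset Finset.univ BL' FL) +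
        (n - S.card : ℝ) / n * q1s x F cf A1 FL' Finset.univ (Kset Finset.univ BL' FL)) := by
  have e0 : ∀ (S : Finset (Fin n)) (K : Finset (Co n LB LF)),
      q1s x F cf A1 (∅ : Finset LF) S K = 0 := fun S K => by unfold q1s; simp
  have e1 : ∀ K : Finset (Co n LB LF), q1 x F A0 ∅ K = 0 := fun K => by unfold q1; simp
  have e2 : sh cb (∅ : Finset LB) = 0 := by unfold sh; simp
  have h1 := h.lev_dn (S := Finset.univ) (G := ∅) hx hB (Finset.Subset.refl FL)
  have h2 := h.step_rows (S := S) (S' := Finset.univ) (G' := ∅) hx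
    (by rw [Finset.card_univ, Fintype.card_fin]; exact hn) (Finset.subset_univ S)
    (Finset.Subset.refl BL') hF (fun π _ i => by simp)
  have h3 := h.lev_up (S := S) (G := ∅) hx hB (Finset.Subset.refl FL')
  have h4 := ent_mono h.lip x (Kset_mono (Finset.subset_univ S) (Finset.Subset.refl BL) hF)
  simp only [Kgs_empty, Finset.sdiff_self, e0, e1, e2, add_zero, zero_add, mul_zero,
    Finset.card_univ, Fintype.card_fin] at h1 h2 h3
  have x2 : 0 < x ^ 2 / 2 := by positivity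
  refine le_of_mul_le_mul_left ?_ x2
  rw [mul_add] at h2
  rw [mul_add, mul_add]
  rw [mul_add] at h2
  linarith

end lev

/-! ### the ensemble `U` -/

section ens

open Vale.Agent.P146.H196 Vale.Agent.P146.H475 Vale.Agent.P146.H281.U
open Vale.Agent.P146.H9.U hiding lvlU

variable {Th : Type} [MeasurableSpace Th] {ν : Measure Th} {η x : ℝ}

section levels

variable (b : ℝ) (cB : LB → ℝ) (cF : LF → ℝ) {a : LF → Th → ℝ}
  {S : Finset (Fin n)} {BL BL' : Finset LB} {FL FL' : Finset LF}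

/-- **The bridge in the ensemble `U`**, general levels. -/
theorem bridgeU (hν : IsFiniteMeasure ν) (h0 : ν ≠ 0) (hA : AmU a η) (hx : 0 < x) (hb : b ≠ 0)
    (hn : 0 < n) (hB : BL ⊆ BL') (hF : FL' ⊆ FL) :
    (shr cB BL' - shr cB BL) *
        QU2 n ν b cB cF a x Finset.univ (Kset Finset.univ BL FL) ≤
      (shr cB BL' - shr cB BL) * QU2 n ν b cB cF a x S (Kset S BL' FL') +
      2 * (n - S.card) / n * shr cB BL' *
        QU2 n ν b cB cF a x Finset.univ (Kset Finset.univ BL' FL) +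
      n / b ^ 2 * (∑ l ∈ FL \ FL', cF l ^ 2 *
          QU1 n ν b cB cF a x (a l) Finset.univ (Kset Finset.univ BL' FL) +
        (n - S.card) / n * ∑ l ∈ FL', cF l ^ 2 *
          QU1 n ν b cB cF a x (a l) Finset.univ (Kset Finset.univ BL' FL)) := by
  have hn' : (0 : ℝ) < n := Nat.cast_pos.2 hn
  have hb2 : 0 < b ^ 2 := by positivity
  have h := levU_bridge (lev_U (n := n) b cB cF hν h0 hA) hx hn hB hF (S := S)
  simp only [← sh_sdiff _ hB, sh_bond, qU2_eq b cB cF hν h0 hA, qU1s_eq b cB cF hν h0 hA] at h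
  have h2 := mul_le_mul_of_nonneg_left h (show 0 ≤ n / b ^ 2 by positivity)
  refine le_trans (le_of_eq ?_) (h2.trans (le_of_eq ?_))
  · field_simp
  · field_simp

end levels

/-! ### the canonical numbers -/

section can

variable {A : Type} [Fintype A] [DecidableEq A]

/-- the pairs: `E ∑_(p inside S) (cx <σσ>)²` at the shares `t`, `u` -/
noncomputable def p2U (n : ℕ) (ν : Measure Th) (b : ℝ) (VF : A → ℝ) (α : A → Th → ℝ) (x : ℝ)
    (S : Finset (Fin n)) (t : ℝ) (u : A → ℝ) : ℝ :=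
  QU2 n ν b (cbU t) (cfU VF u) (fun l => α l.1) x S (Kset S {true} (FLU A))

/-- the sites: `E ∑_(i in S) (cx <f σ_i>)²` at the shares `t`, `u` -/
noncomputable def p1U (n : ℕ) (ν : Measure Th) (b : ℝ) (VF : A → ℝ) (α : A → Th → ℝ) (x : ℝ)
    (f : Th → ℝ) (S : Finset (Fin n)) (t : ℝ) (u : A → ℝ) : ℝ :=
  QU1 n ν b (cbU t) (cfU VF u) (fun l => α l.1) x f S (Kset S {true} (FLU A))

variable {b : ℝ} {VF : A → ℝ} {α : A → Th → ℝ} {κ : LF → A} {cB : LB → ℝ} {cF : LF → ℝ}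
  {BL : Finset LB} {FL : Finset LF} {t t' : ℝ} {u u' : A → ℝ}

lemma comp_amU (hA : AmU α η) (κ : LF → A) : AmU (fun l => α (κ l)) η :=
  ⟨hA.nn, fun l => hA.meas (κ l), fun l => hA.bd (κ l)⟩

/-- the number of the pairs depends on the shares only -/
theorem QU2_sh (hν : IsFiniteMeasure ν) (h0 : ν ≠ 0) (hA : AmU α η)
    (hs : ShU κ cB cF BL FL VF t u) (ht0 : 0 ≤ t) (ht1 : t ≤ 1) (hu0 : ∀ k, 0 ≤ u k)
    (hu1 : ∀ k, u k ≤ 1) (S : Finset (Fin n)) (x : ℝ) :
    QU2 n ν b cB cF (fun l => α (κ l)) x S (Kset S BL FL) = p2U n ν b VF α x S t u := by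
  have hG := gmU (n := n) b (fun _ : Unit => (1 : ℝ)) (fun k => √(VF k)) η hν h0 hA
  have hc := canU ht0 ht1 hu0 hu1 (VF_nonneg hs.totF)
  have h := congrU hG hs hc S x (J := Pair n) (f := fun p w => SkS p w.2)
    (fun p => bm_SkSU p) (Φ := fun v => ∑ p ∈ ps S, v p ^ 2)
    (Finset.measurable_fun_sum _ fun p _ => (measurable_pi_apply p).pow_const 2) fun C =>
      ⟨(ps S).card * C ^ 2, fun v hv => by
        rw [abs_of_nonneg (Finset.sum_nonneg fun p _ => sq_nonneg _)]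
        refine (Finset.sum_le_card_nsmul _ _ (C ^ 2) fun p _ => ?_).trans (le_of_eq ?_)
        · rw [← sq_abs]
          exact pow_le_pow_left₀ (abs_nonneg _) (hv p) 2
        · rw [nsmul_eq_mul]⟩
  exact h

/-- the number of the sites depends on the shares only -/
theorem QU1_sh (hν : IsFiniteMeasure ν) (h0 : ν ≠ 0) (hA : AmU α η)
    (hs : ShU κ cB cF BL FL VF t u) (ht0 : 0 ≤ t) (ht1 : t ≤ 1) (hu0 : ∀ k, 0 ≤ u k)
    (hu1 : ∀ k, u k ≤ 1) {f : Th → ℝ} (hf : Measurable f) {C : ℝ} (hC : ∀ θ, |f θ| ≤ C)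
    (S : Finset (Fin n)) (x : ℝ) :
    QU1 n ν b cB cF (fun l => α (κ l)) x f S (Kset S BL FL) = p1U n ν b VF α x f S t u := by
  have hG := gmU (n := n) b (fun _ : Unit => (1 : ℝ)) (fun k => √(VF k)) η hν h0 hA
  have hc := canU ht0 ht1 hu0 hu1 (VF_nonneg hs.totF)
  have h := congrU hG hs hc S x (J := Fin n) (f := fun i w => f w.1 * sp w.2 i)
    (fun i => bm_fsp hf hC i) (Φ := fun v => ∑ i ∈ S, v i ^ 2)
    (Finset.measurable_fun_sum _ fun p _ => (measurable_pi_apply p).pow_const 2) fun C =>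
      ⟨S.card * C ^ 2, fun v hv => by
        rw [abs_of_nonneg (Finset.sum_nonneg fun p _ => sq_nonneg _)]
        refine (Finset.sum_le_card_nsmul _ _ (C ^ 2) fun p _ => ?_).trans (le_of_eq ?_)
        · rw [← sq_abs]
          exact pow_le_pow_left₀ (abs_nonneg _) (hv p) 2
        · rw [nsmul_eq_mul]⟩
  exact h

/-! ### the canonical bridge -/

/-- the coefficients of three levels: the first has the share `t`, the first two `t'` -/
noncomputable def c3U (t t' : ℝ) : Fin 3 → ℝ := ![√t, √(t' - t), √(1 - t')]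

lemma c3U_sq {t t' : ℝ} (h0 : 0 ≤ t) (h1 : t ≤ t') (h2 : t' ≤ 1) :
    c3U t t' 0 ^ 2 = t ∧ c3U t t' 1 ^ 2 = t' - t ∧ c3U t t' 2 ^ 2 = 1 - t' := by
  refine ⟨Real.sq_sqrt h0, Real.sq_sqrt (sub_nonneg.2 h1), Real.sq_sqrt (sub_nonneg.2 h2)⟩

/-- three levels of each class of fields -/
noncomputable def cf3U (VF : A → ℝ) (u' u : A → ℝ) (l : A × Fin 3) : ℝ :=
  √(VF l.1) * c3U (u' l.1) (u l.1) l.2

/-- the revealed field levels -/
def FL3 (A : Type) [Fintype A] [DecidableEq A] (T : Finset (Fin 3)) : Finset (A × Fin 3) :=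
  Finset.univ ×ˢ T

lemma sum_fst3 (T : Finset (Fin 3)) (k : A) (g : A × Fin 3 → ℝ) :
    ∑ l ∈ FL3 A T with l.1 = k, g l = ∑ j ∈ T, g (k, j) := by
  have e : (Finset.filter (fun l : A × Fin 3 => l.1 = k) (FL3 A T)) =
      T.image fun j => (k, j) := by
    ext l
    rcases l with ⟨k', j⟩
    simp only [FL3, Finset.mem_filter, Finset.mem_product, Finset.mem_univ, true_and,
      Finset.mem_image, Prod.mk.injEq]
    constructor
    · rintro ⟨h1, h2⟩
      exact ⟨j, h1, h2.symm, rfl⟩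
    · rintro ⟨j', h1, h2, h3⟩
      exact ⟨h3 ▸ h1, h2.symm⟩
  rw [e, Finset.sum_image fun i _ j _ h => by simpa using h]

theorem sh_c3 {t0 t1 : ℝ} {u0 u1 : A → ℝ} (h0 : 0 ≤ t0) (h1 : t0 ≤ t1) (h2 : t1 ≤ 1)
    (g0 : ∀ k, 0 ≤ u0 k) (g1 : ∀ k, u0 k ≤ u1 k) (g2 : ∀ k, u1 k ≤ 1) (hV : ∀ k, 0 ≤ VF k) :
    (ShU (Prod.fst : A × Fin 3 → A) (c3U t0 t1) (cf3U VF u0 u1) {0} (FL3 A {0, 1}) VF t0 u1 ∧
      ShU (Prod.fst : A × Fin 3 → A) (c3U t0 t1) (cf3U VF u0 u1) {0, 1} (FL3 A {0, 1}) VF t1 u1) ∧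
      ShU (Prod.fst : A × Fin 3 → A) (c3U t0 t1) (cf3U VF u0 u1) {0, 1} (FL3 A {0}) VF t1 u0 := by
  obtain ⟨a0, a1, a2⟩ := c3U_sq h0 h1 h2
  have b := fun k => c3U_sq (g0 k) (g1 k) (g2 k)
  have hq : ∀ k j, cf3U VF u0 u1 (k, j) ^ 2 = VF k * c3U (u0 k) (u1 k) j ^ 2 := fun k j => by
    unfold cf3U
    rw [mul_pow, Real.sq_sqrt (hV k)]
  have eB : ∑ l, c3U t0 t1 l ^ 2 = 1 := by
    rw [Fin.sum_univ_three, a0, a1, a2]
    ring
  have eF : ∀ k, ∑ l with l.1 = k, cf3U VF u0 u1 l ^ 2 = VF k := by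
    intro k
    have h := sum_fst3 Finset.univ k fun l => cf3U VF u0 u1 l ^ 2
    have e1 : FL3 A Finset.univ = Finset.univ := by
      ext l
      simp [FL3]
    rw [e1] at h
    rw [h, Fin.sum_univ_three, hq, hq, hq, (b k).1, (b k).2.1, (b k).2.2]
    ring
  have eF1 : ∀ k, ∑ l ∈ FL3 A {0, 1} with l.1 = k, cf3U VF u0 u1 l ^ 2 = u1 k * VF k := by
    intro k
    rw [sum_fst3 _ k fun l => cf3U VF u0 u1 l ^ 2, Finset.sum_pair (by decide), hq, hq, (b k).1,
      (b k).2.1]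
    ring
  have eF0 : ∀ k, ∑ l ∈ FL3 A {0} with l.1 = k, cf3U VF u0 u1 l ^ 2 = u0 k * VF k := by
    intro k
    rw [sum_fst3 _ k fun l => cf3U VF u0 u1 l ^ 2, Finset.sum_singleton, hq, (b k).1]
    ring
  have eB0 : ∑ l ∈ ({0} : Finset (Fin 3)), c3U t0 t1 l ^ 2 = t0 := by
    rw [Finset.sum_singleton, a0]
  have eB1 : ∑ l ∈ ({0, 1} : Finset (Fin 3)), c3U t0 t1 l ^ 2 = t1 := by
    rw [Finset.sum_pair (by decide), a0, a1]
    ring
  exact ⟨⟨⟨eB, eF, eB0, eF1⟩, ⟨eB, eF, eB1, eF1⟩⟩, ⟨eB, eF, eB1, eF0⟩⟩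

/-- **The bridge in the ensemble `U`**, canonical numbers: `t ≤ t'` bond shares, `u' ≤ u` field
shares. -/
theorem can_bridgeU (hν : IsFiniteMeasure ν) (h0 : ν ≠ 0) (hA : AmU α η) (hx : 0 < x)
    (hb : b ≠ 0) (hn : 0 < n) (S : Finset (Fin n)) (ht0 : 0 ≤ t) (ht : t ≤ t') (ht1 : t' ≤ 1)
    (hu0 : ∀ k, 0 ≤ u' k) (hu : ∀ k, u' k ≤ u k) (hu1 : ∀ k, u k ≤ 1) (hV : ∀ k, 0 ≤ VF k) :
    (t' - t) * p2U n ν b VF α x Finset.univ t u ≤
      (t' - t) * p2U n ν b VF α x S t' u' +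
      2 * (n - S.card) / n * t' * p2U n ν b VF α x Finset.univ t' u +
      n / b ^ 2 * ∑ k, VF k * ((u k - u' k) + (n - S.card) / n * u' k) *
        p1U n ν b VF α x (α k) Finset.univ t' u := by
  obtain ⟨⟨s1, s2⟩, s3⟩ := sh_c3 (VF := VF) ht0 ht ht1 hu0 hu hu1 hV
  have v0 : ∀ k, 0 ≤ u k := fun k => (hu0 k).trans (hu k)
  have v1 : ∀ k, u' k ≤ 1 := fun k => (hu k).trans (hu1 k)
  have hF : FL3 A {0} ⊆ FL3 A {0, 1} := by
    unfold FL3
    exact Finset.product_subset_product (Finset.Subset.refl _) (by decide)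
  have h := bridgeU (n := n) b (c3U t t') (cf3U VF u' u) (S := S) (BL := {0}) (BL' := {0, 1})
    (FL := FL3 A {0, 1}) (FL' := FL3 A {0}) hν h0 (comp_amU hA Prod.fst) hx hb hn (by decide) hF
  have e1 : shr (c3U t t') {0} = t := s1.shB
  have e2 : shr (c3U t t') {0, 1} = t' := s2.shB
  rw [e1, e2, QU2_sh hν h0 hA s1 ht0 (ht.trans ht1) v0 hu1,
    QU2_sh hν h0 hA s2 (ht0.trans ht) ht1 v0 hu1,
    QU2_sh hν h0 hA s3 (ht0.trans ht) ht1 hu0 v1] at h
  have e3 : ∀ l : A × Fin 3, QU1 n ν b (c3U t t') (cf3U VF u' u) (fun l => α l.1) x (α l.1)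
      Finset.univ (Kset Finset.univ {0, 1} (FL3 A {0, 1})) =
      p1U n ν b VF α x (α l.1) Finset.univ t' u := fun l =>
    QU1_sh hν h0 hA s2 (ht0.trans ht) ht1 v0 hu1 (hA.meas l.1) (hA.abs l.1) Finset.univ x
  simp only [e3] at h
  have e4 : FL3 A {0, 1} \ FL3 A {0} = FL3 A {1} := by
    ext l
    rcases l with ⟨k, j⟩
    fin_cases j <;> simp [FL3]
  have e5 : ∀ (T : Finset (Fin 3)) (g : A → ℝ),
      ∑ l ∈ FL3 A T, cf3U VF u' u l ^ 2 * g l.1 =
        ∑ k, VF k * (∑ j ∈ T, c3U (u' k) (u k) j ^ 2) * g k := by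
    intro T g
    unfold FL3
    rw [Finset.sum_product]
    refine Finset.sum_congr rfl fun k _ => ?_
    rw [Finset.mul_sum, Finset.sum_mul]
    refine Finset.sum_congr rfl fun j _ => ?_
    unfold cf3U
    rw [mul_pow, Real.sq_sqrt (hV k)]
  rw [e4, e5 {1} fun k => p1U n ν b VF α x (α k) Finset.univ t' u,
    e5 {0} fun k => p1U n ν b VF α x (α k) Finset.univ t' u] at h
  refine h.trans (le_of_eq ?_)
  congr 2
  rw [Finset.mul_sum, ← Finset.sum_add_distrib]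
  refine Finset.sum_congr rfl fun k _ => ?_
  have b := c3U_sq (hu0 k) (hu k) (hu1 k)
  rw [Finset.sum_singleton, Finset.sum_singleton, b.1, b.2.1]
  ring

end can

end ens

end Vale.Agent.P146.H442.U
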