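import Vale.Agent.P146.H442.NeBr
import Vale.Agent.P146.H119.KInt

/-!
# P146: the near end bridge as a statement about functions of the shares

`base_bridge`: `e2`, `e1` are the numbers of `H119.Base` (energies of the bonds and of the fields
at the bond share `t` and the field variance `v`, frozen set of sites `S`).
`ne_rr`: the same for `rr S t = 2 e2 S t v / n ^ 2`, at the times `T = 1 - t`.
`ne_univ`: the near end for the full set of sites from the near end for sets with hidden sites.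
-/

open MeasureTheory ProbabilityTheory

namespace Vale.Agent.P146.H442

open Vale.Agent.P146.H119 Vale.Agent.P146.H347

/-- the coefficients of three levels of the bonds -/
noncomputable def cb3 (t t' : ℝ) : Fin 3 → ℝ := ![√t, √(t' - t), √(1 - t')]

lemma shr_cb3 {t t' : ℝ} (h0 : 0 ≤ t) (h1 : t ≤ t') (h2 : t' ≤ 1) :
    shr (cb3 t t') {0} = t ∧ shr (cb3 t t') {0, 1} = t' ∧
      shr (cb3 t t') Finset.univ = 1 := shr_cf3 h0 h1 h2

section base

variable {n : ℕ} {b V s lam η c x K0 : ℝ} {e2 e1 : Finset (Fin n) → ℝ → ℝ → ℝ}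

/-- **The bridge**, as a statement about functions of the shares. -/
theorem base_bridge (hb : Base n b V s lam η c x K0 e2 e1) (hl : 0 < lam) (hη : 0 ≤ η)
    (hx : 0 < x) (hb0 : b ≠ 0) (hn : 0 < n) (S : Finset (Fin n)) {t t' v : ℝ} (h0 : 0 ≤ t)
    (h1 : t ≤ t') (h2 : t' ≤ 1) (hv : 0 ≤ v) (hV : v ≤ V) :
    (t' - t) * e2 Finset.univ t v ≤ (t' - t) * e2 S t' v +
      2 * (n - S.card) / n * t' * e2 Finset.univ t' v +
      (n - S.card) / b ^ 2 * v * e1 Finset.univ t' v := by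
  obtain ⟨g0, g1, g2⟩ := shr_cb3 h0 h1 h2
  obtain ⟨f0, -, f2⟩ := shr_cf3 (v' := v) hv le_rfl hV
  have h := bridge b (cb3 t t') (cf3 V v v) s c hl hη hx hb0 hn
    (S := S) (BL := {0}) (BL' := {0, 1}) (FL := {0}) (by simp)
  rw [hb.q2 _ _ g2 f2, hb.q2 _ _ g2 f2, hb.q2 _ _ g2 f2, hb.q1 _ _ g2 f2, g0, g1, f0] at h
  exact h

/-- the bound of the fields -/
lemma base_e1_le (hb : Base n b V s lam η c x K0 e2 e1) (hl : 0 < lam) (hη : 0 ≤ η)
    (S : Finset (Fin n)) {t v : ℝ} (h0 : 0 ≤ t) (h1 : t ≤ 1) (hv : 0 ≤ v) (hV : v ≤ V) :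
    e1 S t v ≤ S.card := by
  obtain ⟨g0, -, g2⟩ := shr_cb3 (t' := t) h0 le_rfl h1
  obtain ⟨f0, -, f2⟩ := shr_cf3 (v' := v) hv le_rfl hV
  have h := Q1_le (n := n) b (cb3 t t) (cf3 V v v) s c hl hη x S (Kset S {0} {0})
  rw [hb.q1 _ _ g2 f2, g0, f0] at h
  exact h

/-- **The bridge at the times** `T = 1 - t`, `T / 2`, normalised: `rr = 2 e2 / n ^ 2`. -/
theorem ne_rr (hb : Base n b V s lam η c x K0 e2 e1) (hl : 0 < lam) (hη : 0 ≤ η)
    (hx : 0 < x) (hb0 : b ≠ 0) (hn : 0 < n) (S : Finset (Fin n)) {T v : ℝ} (h0 : 0 ≤ T)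
    (h1 : T ≤ 1) (hv : 0 ≤ v) (hV : v ≤ V) (he : 0 ≤ e2 Finset.univ (1 - T / 2) v) :
    T * (2 * e2 Finset.univ (1 - T) v / n ^ 2) ≤ T * (2 * e2 S (1 - T / 2) v / n ^ 2) +
      4 * ((n - S.card) / n) * (2 * e2 Finset.univ (1 - T / 2) v / n ^ 2) +
      4 * v * (n - S.card) / (n * b ^ 2) := by
  have hn' : (0 : ℝ) < n := Nat.cast_pos.2 hn
  have hb2 : 0 < b ^ 2 := by positivity
  have m0 : (0 : ℝ) ≤ n - S.card := by
    have := Finset.card_le_univ S
    rw [Fintype.card_fin] at this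
    have h' : (S.card : ℝ) ≤ n := by exact_mod_cast this
    linarith
  have h := base_bridge hb hl hη hx hb0 hn S (t := 1 - T) (t' := 1 - T / 2) (v := v)
    (by linarith) (by linarith) (by linarith) hv hV
  have h2 := base_e1_le hb hl hη Finset.univ (t := 1 - T / 2) (v := v) (by linarith)
    (by linarith) hv hV
  rw [Finset.card_univ, Fintype.card_fin] at h2
  have e : 1 - T / 2 - (1 - T) = T / 2 := by ring
  rw [e] at h
  have h3 : (n - S.card) / b ^ 2 * v * e1 Finset.univ (1 - T / 2) v ≤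
      (n - S.card) / b ^ 2 * v * n := by
    refine mul_le_mul_of_nonneg_left h2 ?_
    exact mul_nonneg (div_nonneg m0 hb2.le) hv
  have h4 : 2 * (n - S.card) / n * (1 - T / 2) * e2 Finset.univ (1 - T / 2) v ≤
      2 * (n - S.card) / n * 1 * e2 Finset.univ (1 - T / 2) v := by
    refine mul_le_mul_of_nonneg_right (mul_le_mul_of_nonneg_left (by linarith) ?_) he
    exact div_nonneg (by linarith) hn'.le
  have h5 : T / 2 * e2 Finset.univ (1 - T) v ≤ T / 2 * e2 S (1 - T / 2) v +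
      2 * (n - S.card) / n * e2 Finset.univ (1 - T / 2) v +
      (n - S.card) / b ^ 2 * v * n := by linarith
  have h6 := mul_le_mul_of_nonneg_left h5 (show 0 ≤ 4 / (n : ℝ) ^ 2 by positivity)
  refine le_trans (le_of_eq ?_) (h6.trans (le_of_eq ?_))
  · ring
  · field_simp
    ring

/-- **The near end for the full set of sites.** `a` = a priori bound of `T rr / 2` at `T / 2`,
`n - |S| ≤ θ n T`. -/
theorem ne_univ (hb : Base n b V s lam η c x K0 e2 e1) (hl : 0 < lam) (hη : 0 ≤ η)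
    (hx : 0 < x) (hb0 : b ≠ 0) (hn : 0 < n) (S : Finset (Fin n)) {T v θ a g : ℝ} (h0 : 0 ≤ T)
    (h1 : T ≤ 1) (hv : 0 ≤ v) (hV : v ≤ V) (he : 0 ≤ e2 Finset.univ (1 - T / 2) v)
    (hm : (n - S.card : ℝ) ≤ θ * n * T)
    (ha : T * (2 * e2 Finset.univ (1 - T / 2) v / n ^ 2) ≤ a)
    (hg : T * (2 * e2 S (1 - T / 2) v / n ^ 2) ≤ g) (hθ : 0 ≤ θ) :
    T * (2 * e2 Finset.univ (1 - T) v / n ^ 2) ≤ g + 4 * θ * a + 4 * v * θ * T / b ^ 2 := by
  have hn' : (0 : ℝ) < n := Nat.cast_pos.2 hn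
  have hb2 : 0 < b ^ 2 := by positivity
  have h := ne_rr hb hl hη hx hb0 hn S h0 h1 hv hV he
  have h2 : (n - S.card : ℝ) / n ≤ θ * T := by
    rw [div_le_iff₀ hn']
    linarith
  have h3 : 4 * ((n - S.card : ℝ) / n) * (2 * e2 Finset.univ (1 - T / 2) v / n ^ 2) ≤
      4 * θ * a := by
    have e0 : 0 ≤ 2 * e2 Finset.univ (1 - T / 2) v / (n : ℝ) ^ 2 := by positivity
    have e3 := mul_le_mul_of_nonneg_right h2 e0
    have e4 := mul_le_mul_of_nonneg_left ha hθ
    have e5 : θ * T * (2 * e2 Finset.univ (1 - T / 2) v / n ^ 2) =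
        θ * (T * (2 * e2 Finset.univ (1 - T / 2) v / n ^ 2)) := by ring
    rw [mul_assoc 4]
    linarith
  have h4 : 4 * v * (n - S.card) / (n * b ^ 2) ≤ 4 * v * θ * T / b ^ 2 := by
    have e3 := mul_le_mul_of_nonneg_left h2 (show 0 ≤ 4 * v / b ^ 2 by positivity)
    refine le_trans (le_of_eq ?_) (e3.trans (le_of_eq ?_))
    · field_simp
    · ring
  linarith

end base

end Vale.Agent.P146.H442
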