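import Vale.Agent.P146.H442.NeBrU
import Vale.Agent.P146.H463.MomU

/-!
# P146: the near end in the ensemble `U`, for the full set of sites

`QU1_le`: `E ∑_(i in S) (cx <f σ_i>)² ≤ C² √(|S| + 2 E ∑_(p inside S) (cx <σσ>)²)`, `|f| ≤ C`.
`rrU` = twice the pairs, divided by `n²`; `p1U_le`, `p1U_le'`: the bounds of the sites.
`rr_bridgeU`, `ne_U`: the near end of the full set of sites and of the field shares `u`, from the
near end of a set with hidden sites, at half the time, with the field shares `u'`.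
-/

open MeasureTheory ProbabilityTheory

namespace Vale.Agent.P146.H442.U

open Vale.Agent.P157.Lv hiding Dep
open Vale.Agent.P146.H425 Vale.Agent.P146.H646 Vale.Agent.P146.H119
open Vale.Agent.P146.H347 Vale.Agent.P146.H816 Vale.Agent.P146.H325
open Vale.Agent.P146.H196 Vale.Agent.P146.H475 Vale.Agent.P146.H281.U
open Vale.Agent.P146.H9.U hiding lvlU

set_option linter.unusedSectionVars false

variable {n : ℕ} {Th : Type} [MeasurableSpace Th] {ν : Measure Th} {η x : ℝ}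

section levels

variable {LB LF : Type} [Fintype LB] [DecidableEq LB] [Fintype LF] [DecidableEq LF]
  (b : ℝ) (cB : LB → ℝ) (cF : LF → ℝ) {a : LF → Th → ℝ}

lemma QU2_nonneg (hν : IsFiniteMeasure ν) (h0 : ν ≠ 0) (hA : AmU a η) (x : ℝ)
    (S : Finset (Fin n)) (K : Finset (Co n LB LF)) : 0 ≤ QU2 n ν b cB cF a x S K := by
  rw [← qU2_eq b cB cF hν h0 hA]
  exact (lev_U (n := n) b cB cF hν h0 hA).q2_nonneg x S K

/-- the sites from the pairs -/
theorem QU1_le (hν : IsFiniteMeasure ν) (h0 : ν ≠ 0) (hA : AmU a η) (hn : 0 < n) (x : ℝ)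
    {f : Th → ℝ} (hf : Measurable f) {C : ℝ} (hC : ∀ θ, |f θ| ≤ C) (S : Finset (Fin n))
    (K : Finset (Co n LB LF)) :
    QU1 n ν b cB cF a x f S K ≤ C ^ 2 * √(S.card + 2 * QU2 n ν b cB cF a x S K) := by
  have hG := gmU (n := n) b cB cF η hν h0 hA
  have hw : Wt (g1 (Co n LB LF)) (Zxm (muU ν n) 1 (SU b cB cF a) x) := hG.wt 1 x
  have hn0 : (0 : ℝ) < n := Nat.cast_pos.2 hn
  have hB : Bm fun w : Th × Xs n => f w.1 :=
    Bm.of (hf.comp measurable_fst) (C := C) fun w => hC w.1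
  have b1 : ∀ i, BM (avm (muU ν n) 1 (SU b cB cF a) fun w => f w.1 * sp w.2 i) :=
    fun i => hG.bm_avm 1 (bm_fsp hf hC i)
  have b2 : ∀ p, BM (avm (muU ν n) 1 (SU b cB cF a) fun w => SkS p w.2) :=
    fun p => hG.bm_avm 1 (bm_SkSU p)
  set G : (Co n LB LF → ℝ) → ℝ := fun z => ∑ i ∈ S,
    cx (g1 _) K (Zxm (muU ν n) 1 (SU b cB cF a) x)
      (avm (muU ν n) 1 (SU b cB cF a) fun w => f w.1 * sp w.2 i) z ^ 2 with hGd
  set P : (Co n LB LF → ℝ) → ℝ := fun z => ∑ p ∈ ps S,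
    cx (g1 _) K (Zxm (muU ν n) 1 (SU b cB cF a) x)
      (avm (muU ν n) 1 (SU b cB cF a) fun w => SkS p w.2) z ^ 2 with hPd
  have bG : BM G := BM.sum _ fun i _ => (hw.bm_cx K (b1 i)).sq
  have bP : BM P := BM.sum _ fun p _ => (hw.bm_cx K (b2 p)).sq
  have P0 : ∀ z, 0 ≤ P z := fun z => Finset.sum_nonneg fun _ _ => sq_nonneg _
  have G0 : ∀ z, 0 ≤ G z := fun z => Finset.sum_nonneg fun _ _ => sq_nonneg _
  have key : ∀ z, G z ^ 2 ≤ C ^ 4 * (S.card + 2 * P z) := by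
    intro z
    have h1 := H463.U.Qu_le hν h0 hA hB (fun w => hC w.1) x b cB cF hn K S z
    have h2 := H463.U.CCu_prs (S := S) hν h0 hA x b cB cF K z
    have h3 : G z / n ≤ C ^ 2 * √(H463.U.CCu ν n b cB cF a x K S z) := h1
    have h4 : H463.U.CCu ν n b cB cF a x K S z = (S.card + 2 * P z) / (n : ℝ) ^ 2 := h2
    have h5 : 0 ≤ (S.card : ℝ) + 2 * P z := by have := P0 z; positivity
    rw [h4, Real.sqrt_div h5, Real.sqrt_sq hn0.le, div_le_iff₀ hn0] at h3
    have h6 : C ^ 2 * (√(S.card + 2 * P z) / n) * n = C ^ 2 * √(S.card + 2 * P z) := by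
      field_simp
    rw [h6] at h3
    calc G z ^ 2 ≤ (C ^ 2 * √(S.card + 2 * P z)) ^ 2 := pow_le_pow_left₀ (G0 z) h3 2
      _ = C ^ 4 * (S.card + 2 * P z) := by
        rw [mul_pow, Real.sq_sqrt h5]
        ring
  have h1 := hw.ex_sq_le bG
  have h2 := hw.ex_mono bG.sq ((BM.const (C ^ 4)).mul ((BM.const (S.card : ℝ)).add
    ((BM.const 2).mul bP))) key
  have h3 : ex (g1 _) (Zxm (muU ν n) 1 (SU b cB cF a) x)
      (fun z => C ^ 4 * ((S.card : ℝ) + 2 * P z)) =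
      C ^ 4 * (S.card + 2 * QU2 n ν b cB cF a x S K) := by
    rw [hw.ex_const_mul, hw.ex_add (BM.const _) ((BM.const 2).mul bP), hw.ex_const_mul]
    have h3 := hw.ex_const_mul (Ψ := fun _ => (1 : ℝ)) (S.card : ℝ)
    simp only [mul_one] at h3
    rw [h3, hw.ex_one, mul_one]
    rfl
  rw [h3] at h2
  have h4 := QU2_nonneg b cB cF hν h0 hA x S K
  have h5 : QU1 n ν b cB cF a x f S K ^ 2 ≤
      (C ^ 2 * √(S.card + 2 * QU2 n ν b cB cF a x S K)) ^ 2 := by
    rw [mul_pow, Real.sq_sqrt (by positivity)]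
    calc QU1 n ν b cB cF a x f S K ^ 2 ≤ _ := h1
      _ ≤ _ := h2
      _ = _ := by ring
  exact le_of_sq_le_sq h5 (by positivity)

/-- the trivial bound -/
theorem QU1_le_card (hν : IsFiniteMeasure ν) (h0 : ν ≠ 0) (hA : AmU a η) (x : ℝ)
    {f : Th → ℝ} (hf : Measurable f) {C : ℝ} (hC : ∀ θ, |f θ| ≤ C) (S : Finset (Fin n))
    (K : Finset (Co n LB LF)) : QU1 n ν b cB cF a x f S K ≤ S.card * C ^ 2 := by
  have hG := gmU (n := n) b cB cF η hν h0 hA
  have h := lev_U (n := n) b cB cF hν h0 hA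
  rw [← qU1_eq b cB cF hν h0 hA hf hC]
  unfold q1
  have h1 : ∀ i ∈ S, en x (lzm (muU ν n) 1 (SU b cB cF a)) (avm (muU ν n) 1
      (SU b cB cF a) fun w => f w.1 * sp w.2 i) K ≤ C ^ 2 := by
    intro i _
    refine en_le h.lip x (bm hG 1 (bm_fsp hf hC i)) (fun z => ?_) K
    have h1 := hG.abs_av_le 1 (bm_fsp hf hC i).meas (C := C) (fun w => by
      rw [abs_mul]
      have h2 := H281.U.abs_sp w.2 i
      have h3 := hC w.1
      nlinarith [abs_nonneg (f w.1), abs_nonneg (sp w.2 i)]) z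
    rw [← sq_abs]
    exact pow_le_pow_left₀ (abs_nonneg _) h1 2
  refine (Finset.sum_le_card_nsmul _ _ _ h1).trans (le_of_eq ?_)
  rw [nsmul_eq_mul]

end levels

/-! ### the canonical numbers -/

variable {A : Type} [Fintype A] [DecidableEq A] {b : ℝ} {VF : A → ℝ} {α : A → Th → ℝ}
  {t t' : ℝ} {u u' : A → ℝ}

/-- the second moment of the overlap of two copies, without the diagonal -/
noncomputable def rrU (n : ℕ) (ν : Measure Th) (b : ℝ) (VF : A → ℝ) (α : A → Th → ℝ) (x : ℝ)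
    (S : Finset (Fin n)) (t : ℝ) (u : A → ℝ) : ℝ := 2 * p2U n ν b VF α x S t u / (n : ℝ) ^ 2

lemma p2U_nonneg (hν : IsFiniteMeasure ν) (h0 : ν ≠ 0) (hA : AmU α η)
    (S : Finset (Fin n)) (t : ℝ) (u : A → ℝ) : 0 ≤ p2U n ν b VF α x S t u :=
  QU2_nonneg b (cbU t) (cfU VF u) hν h0 (comp_amU hA Prod.fst) x S _

lemma rrU_nonneg (hν : IsFiniteMeasure ν) (h0 : ν ≠ 0) (hA : AmU α η)
    (S : Finset (Fin n)) (t : ℝ) (u : A → ℝ) : 0 ≤ rrU n ν b VF α x S t u := by
  have := p2U_nonneg (b := b) (VF := VF) (x := x) hν h0 hA S t u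
  unfold rrU
  positivity

/-- the sites from the pairs, canonical numbers -/
theorem p1U_le (hν : IsFiniteMeasure ν) (h0 : ν ≠ 0) (hA : AmU α η) (hn : 0 < n)
    {f : Th → ℝ} (hf : Measurable f) {C : ℝ} (hC : ∀ θ, |f θ| ≤ C) (t : ℝ) (u : A → ℝ) :
    p1U n ν b VF α x f Finset.univ t u ≤
      n * C ^ 2 * √(rrU n ν b VF α x Finset.univ t u + 1 / n) := by
  have hn0 : (0 : ℝ) < n := Nat.cast_pos.2 hn
  have h := QU1_le b (cbU t) (cfU VF u) hν h0 (comp_amU hA Prod.fst) hn x hf hC Finset.univ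
    (Kset Finset.univ {true} (FLU A))
  rw [Finset.card_univ, Fintype.card_fin] at h
  have e : (n : ℝ) + 2 * QU2 n ν b (cbU t) (cfU VF u) (fun l => α l.1) x Finset.univ
      (Kset Finset.univ {true} (FLU A)) =
      (n : ℝ) ^ 2 * (rrU n ν b VF α x Finset.univ t u + 1 / n) := by
    unfold rrU p2U
    field_simp
    ring
  rw [e, Real.sqrt_mul (by positivity), Real.sqrt_sq hn0.le] at h
  refine h.trans (le_of_eq ?_)
  ring

/-- the trivial bound of the sites -/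
theorem p1U_le' (hν : IsFiniteMeasure ν) (h0 : ν ≠ 0) (hA : AmU α η)
    {f : Th → ℝ} (hf : Measurable f) {C : ℝ} (hC : ∀ θ, |f θ| ≤ C) (t : ℝ) (u : A → ℝ) :
    p1U n ν b VF α x f Finset.univ t u ≤ n * C ^ 2 := by
  have h := QU1_le_card b (cbU t) (cfU VF u) hν h0 (comp_amU hA Prod.fst) x hf hC
    (Finset.univ : Finset (Fin n)) (Kset Finset.univ {true} (FLU A))
  rwa [Finset.card_univ, Fintype.card_fin] at h

/-- **The bridge at the times** `T`, `T / 2`: `m = n - |S|` hidden sites, the field shares `u` and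
`u' ≤ u`. -/
theorem rr_bridgeU (hν : IsFiniteMeasure ν) (h0 : ν ≠ 0) (hA : AmU α η) (hx : 0 < x)
    (hb : b ≠ 0) (hn : 0 < n) (S : Finset (Fin n)) {T : ℝ} (hT0 : 0 ≤ T) (hT1 : T ≤ 1)
    (hu0 : ∀ k, 0 ≤ u' k) (hu : ∀ k, u' k ≤ u k) (hu1 : ∀ k, u k ≤ 1) (hV : ∀ k, 0 ≤ VF k) :
    T * rrU n ν b VF α x Finset.univ (1 - T) u ≤
      T * rrU n ν b VF α x S (1 - T / 2) u' +
      4 * ((n - S.card) / n) * rrU n ν b VF α x Finset.univ (1 - T / 2) u +
      4 * (1 + η) ^ 2 / b ^ 2 *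
        ((∑ k, VF k * (u k - u' k)) * √(rrU n ν b VF α x Finset.univ (1 - T / 2) u + 1 / n) +
          (n - S.card) / n * ∑ k, VF k * u' k) := by
  have hn0 : (0 : ℝ) < n := Nat.cast_pos.2 hn
  have hb2 : 0 < b ^ 2 := by positivity
  have m0 : (0 : ℝ) ≤ n - S.card := by
    have := Finset.card_le_univ S
    rw [Fintype.card_fin] at this
    have h' : (S.card : ℝ) ≤ n := by exact_mod_cast this
    linarith
  have h := can_bridgeU (t := 1 - T) (t' := 1 - T / 2) hν h0 hA hx hb hn S (by linarith)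
    (by linarith) (by linarith) hu0 hu hu1 hV
  have e : 1 - T / 2 - (1 - T) = T / 2 := by ring
  rw [e] at h
  set R := rrU n ν b VF α x Finset.univ (1 - T / 2) u with hR
  have hp := p2U_nonneg (n := n) (b := b) (VF := VF) (x := x) hν h0 hA Finset.univ (1 - T / 2) u
  have h1 : ∀ k, VF k * ((u k - u' k) + (n - S.card) / n * u' k) *
      p1U n ν b VF α x (α k) Finset.univ (1 - T / 2) u ≤
      VF k * (u k - u' k) * (n * (1 + η) ^ 2 * √(R + 1 / n)) +
        (n - S.card) / n * (VF k * u' k) * (n * (1 + η) ^ 2) := by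
    intro k
    have g1 := p1U_le (n := n) (b := b) (VF := VF) (x := x) hν h0 hA hn (hA.meas k) (hA.abs k)
      (1 - T / 2) u
    have g2 := p1U_le' (n := n) (b := b) (VF := VF) (x := x) hν h0 hA (hA.meas k) (hA.abs k)
      (1 - T / 2) u
    have k1 := mul_le_mul_of_nonneg_left g1
      (show 0 ≤ VF k * (u k - u' k) from mul_nonneg (hV k) (sub_nonneg.2 (hu k)))
    have k2 := mul_le_mul_of_nonneg_left g2
      (show 0 ≤ (n - S.card) / n * (VF k * u' k) from
        mul_nonneg (div_nonneg m0 hn0.le) (mul_nonneg (hV k) (hu0 k)))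
    refine le_trans (le_of_eq ?_) (add_le_add k1 k2)
    ring
  have h2 := Finset.sum_le_sum fun k (_ : k ∈ Finset.univ) => h1 k
  rw [Finset.sum_add_distrib, ← Finset.sum_mul, ← Finset.sum_mul, ← Finset.mul_sum] at h2
  have h3 := mul_le_mul_of_nonneg_left h2 (show 0 ≤ n / b ^ 2 by positivity)
  have h4 : 2 * (n - S.card) / n * (1 - T / 2) *
      p2U n ν b VF α x Finset.univ (1 - T / 2) u ≤
      2 * (n - S.card) / n * 1 * p2U n ν b VF α x Finset.univ (1 - T / 2) u := by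
    refine mul_le_mul_of_nonneg_right (mul_le_mul_of_nonneg_left (by linarith) ?_) hp
    exact div_nonneg (by linarith) hn0.le
  have h5 := mul_le_mul_of_nonneg_left (h.trans (add_le_add (add_le_add le_rfl h4) h3))
    (show 0 ≤ 4 / (n : ℝ) ^ 2 by positivity)
  refine le_trans (le_of_eq ?_) (h5.trans (le_of_eq ?_))
  · unfold rrU
    ring
  · rw [hR]
    unfold rrU
    field_simp
    ring

/-- **The near end of the full set of sites, in the ensemble `U`.** `m = n - |S| ≤ θ n T`,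
`a` = a priori bound of `T rr` at `(univ, T / 2, u)`, `g` = the near end at `(S, T / 2, u')`,
`e` = total variance of the hidden field windows. -/
theorem ne_U (hν : IsFiniteMeasure ν) (h0 : ν ≠ 0) (hA : AmU α η) (hx : 0 < x)
    (hb : b ≠ 0) (hn : 0 < n) (S : Finset (Fin n)) {T θ a g e v : ℝ} (hT0 : 0 < T) (hT1 : T ≤ 1)
    (hu0 : ∀ k, 0 ≤ u' k) (hu : ∀ k, u' k ≤ u k) (hu1 : ∀ k, u k ≤ 1) (hV : ∀ k, 0 ≤ VF k)
    (hm : (n - S.card : ℝ) ≤ θ * n * T) (hθ : 0 ≤ θ)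
    (ha : T * rrU n ν b VF α x Finset.univ (1 - T / 2) u ≤ a)
    (hg : T * rrU n ν b VF α x S (1 - T / 2) u' ≤ g)
    (he : ∑ k, VF k * (u k - u' k) ≤ e) (hv : ∑ k, VF k ≤ v) (hn1 : T / n ≤ a) :
    T * rrU n ν b VF α x Finset.univ (1 - T) u ≤
      g + 4 * θ * a + 4 * (1 + η) ^ 2 / b ^ 2 * (e * √(2 * a / T) + θ * T * v) := by
  have hn0 : (0 : ℝ) < n := Nat.cast_pos.2 hn
  have hb2 : 0 < b ^ 2 := by positivity
  have m0 : (0 : ℝ) ≤ n - S.card := by
    have := Finset.card_le_univ S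
    rw [Fintype.card_fin] at this
    have h' : (S.card : ℝ) ≤ n := by exact_mod_cast this
    linarith
  have h := rr_bridgeU (T := T) hν h0 hA hx hb hn S hT0.le hT1 hu0 hu hu1 hV
  set R := rrU n ν b VF α x Finset.univ (1 - T / 2) u with hR
  have R0 : 0 ≤ R := rrU_nonneg hν h0 hA _ _ _
  have h2 : (n - S.card : ℝ) / n ≤ θ * T := by
    rw [div_le_iff₀ hn0]
    linarith
  have h3 : 4 * ((n - S.card : ℝ) / n) * R ≤ 4 * θ * a := by
    have e3 := mul_le_mul_of_nonneg_right h2 R0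
    have e4 := mul_le_mul_of_nonneg_left ha hθ
    have e5 : θ * T * R = θ * (T * R) := by ring
    rw [mul_assoc 4]
    linarith
  have h4 : √(R + 1 / n) ≤ √(2 * a / T) := by
    refine Real.sqrt_le_sqrt ?_
    rw [le_div_iff₀ hT0]
    have : (R + 1 / n) * T = T * R + T / n := by ring
    linarith
  have d0 : 0 ≤ ∑ k, VF k * (u k - u' k) :=
    Finset.sum_nonneg fun k _ => mul_nonneg (hV k) (sub_nonneg.2 (hu k))
  have h5 : (∑ k, VF k * (u k - u' k)) * √(R + 1 / n) ≤ e * √(2 * a / T) :=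
    mul_le_mul he h4 (Real.sqrt_nonneg _) (d0.trans he)
  have v0 : 0 ≤ ∑ k, VF k * u' k := Finset.sum_nonneg fun k _ => mul_nonneg (hV k) (hu0 k)
  have v1 : ∑ k, VF k * u' k ≤ v := by
    refine le_trans (Finset.sum_le_sum fun k _ => ?_) hv
    exact mul_le_of_le_one_right (hV k) ((hu k).trans (hu1 k))
  have h6 : (n - S.card : ℝ) / n * ∑ k, VF k * u' k ≤ θ * T * v :=
    mul_le_mul h2 v1 v0 (mul_nonneg hθ hT0.le)
  have h7 := mul_le_mul_of_nonneg_left (add_le_add h5 h6)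
    (show 0 ≤ 4 * (1 + η) ^ 2 / b ^ 2 by positivity)
  linarith

end Vale.Agent.P146.H442.U
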