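import Vale.Agent.P146.H442.NeU
import Vale.Agent.P146.H698.SkelU

/-!
# P146: the near end of the full set of sites, modulated field revealed, on the names of Skel

`ne_rrg`: from the number `L.rrg S (1 - T / 2) u' g'` with hidden sites and hidden windows of both
fields to `L.rrg univ (1 - T) u 1`.
-/

open MeasureTheory ProbabilityTheory

namespace Vale.Agent.P146.H442.U

open Vale.Agent.P146.H418 Vale.Agent.P146.H698 Vale.Agent.P146.H698.Br Vale.Agent.P146.H281.U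
  Vale.Agent.P146.H9.U

variable (L : Law)

lemma rrU_rrg (S : Finset (Fin L.n)) (t u g : ℝ) :
    rrU L.n L.nuL L.b (VFb L.vp L.s) (fun k (θ : Unit → ℝ) => αb L.η k (θ ())) L.x S t
      (ub u g) = L.rrg S t u g := rfl

/-- **The bridge on the names of Skel.** -/
theorem rrg_bridge (hl : 0 < L.lam) (hη : 0 ≤ L.η) (hx : 0 < L.x) (hb : L.b ≠ 0)
    (hn : 0 < L.n) (hv : 0 ≤ L.vp) (S : Finset (Fin L.n)) {T u u' g g' : ℝ} (hT0 : 0 ≤ T)
    (hT1 : T ≤ 1) (hu0 : 0 ≤ u') (hu : u' ≤ u) (hu1 : u ≤ 1) (hg0 : 0 ≤ g') (hg : g' ≤ g)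
    (hg1 : g ≤ 1) :
    T * L.rrg Finset.univ (1 - T) u g ≤
      T * L.rrg S (1 - T / 2) u' g' +
      4 * ((L.n - S.card) / L.n) * L.rrg Finset.univ (1 - T / 2) u g +
      4 * (1 + L.η) ^ 2 / L.b ^ 2 *
        ((L.vp * (u - u') + L.s ^ 2 * (g - g')) *
            √(L.rrg Finset.univ (1 - T / 2) u g + 1 / L.n) +
          (L.n - S.card) / L.n * (L.vp * u' + L.s ^ 2 * g')) := by
  have h := rr_bridgeU (b := L.b) (VF := VFb L.vp L.s)
    (α := fun k (θ : Unit → ℝ) => αb L.η k (θ ())) (u := ub u g) (u' := ub u' g')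
    (nuL_fin L hl hη) (nuL_ne L hl hη) (amU_L L hη id) hx hb hn S hT0 hT1 (ub_nonneg hu0 hg0)
    (ub_mono hu hg) (ub_le_one hu1 hg1) (VFb_nonneg L hv)
  simp only [rrU_rrg] at h
  have e1 : ∑ k, VFb L.vp L.s k * (ub u g k - ub u' g' k) =
      L.vp * (u - u') + L.s ^ 2 * (g - g') := by
    rw [Fintype.sum_bool]
    simp only [VFb, ub]
    simp
    ring
  have e2 : ∑ k, VFb L.vp L.s k * ub u' g' k = L.vp * u' + L.s ^ 2 * g' := by
    rw [Fintype.sum_bool]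
    simp only [VFb, ub]
    simp
    ring
  rw [e1, e2] at h
  exact h

/-- **The near end, all the modulated field revealed.** `n - |S| ≤ θ n T`, `a` = a priori bound of
`T rrg` at `(univ, T / 2, u, 1)`, `X` = near end at `(S, T / 2, u', g')`, `e` = the variance of the
hidden windows. -/
theorem ne_rrg (hl : 0 < L.lam) (hη : 0 ≤ L.η) (hx : 0 < L.x) (hb : L.b ≠ 0)
    (hn : 0 < L.n) (hv : 0 ≤ L.vp) (S : Finset (Fin L.n)) {T θ a X e u u' g' : ℝ}
    (hT0 : 0 < T) (hT1 : T ≤ 1) (hu0 : 0 ≤ u') (hu : u' ≤ u) (hu1 : u ≤ 1) (hg0 : 0 ≤ g')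
    (hg : g' ≤ 1) (hm : (L.n - S.card : ℝ) ≤ θ * L.n * T) (hθ : 0 ≤ θ)
    (ha : T * L.rrg Finset.univ (1 - T / 2) u 1 ≤ a)
    (hX : T * L.rrg S (1 - T / 2) u' g' ≤ X)
    (he : L.vp * (u - u') + L.s ^ 2 * (1 - g') ≤ e) (hn1 : T / L.n ≤ a) :
    T * L.rrg Finset.univ (1 - T) u 1 ≤
      X + 4 * θ * a + 4 * (1 + L.η) ^ 2 / L.b ^ 2 *
        (e * √(2 * a / T) + θ * T * (L.vp + L.s ^ 2)) := by
  have e1 : ∑ k, VFb L.vp L.s k * (ub u 1 k - ub u' g' k) =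
      L.vp * (u - u') + L.s ^ 2 * (1 - g') := by
    rw [Fintype.sum_bool]
    simp only [VFb, ub]
    simp
    ring
  have e2 : ∑ k, VFb L.vp L.s k = L.vp + L.s ^ 2 := by
    rw [Fintype.sum_bool]
    simp only [VFb]
    simp
    ring
  exact ne_U (b := L.b) (VF := VFb L.vp L.s)
    (α := fun k (θ : Unit → ℝ) => αb L.η k (θ ())) (u := ub u 1) (u' := ub u' g')
    (nuL_fin L hl hη) (nuL_ne L hl hη) (amU_L L hη id) hx hb hn S hT0 hT1 (ub_nonneg hu0 hg0)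
    (ub_mono hu hg) (ub_le_one hu1 le_rfl) (VFb_nonneg L hv) hm hθ ha hX (by rw [e1]; exact he)
    (by rw [e2]) hn1

end Vale.Agent.P146.H442.U
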