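import Vale.Agent.P146.H615.NumU

/-!
# P146: second regime with a share of the modulated field revealed, the numbers

`q_le`: the row inequality of `H118.Reg2U` and the sizes of its terms give `q ≤ n^(q/4) V / T`.
-/

open MeasureTheory ProbabilityTheory Filter Set

namespace Vale.Agent.P146.H442

open Vale.Agent.P146.H470 Vale.Agent.P146.H418 Vale.Agent.P146.H615

variable {a0 b₁ q A b : ℝ} {n : ℕ} {y V al s lam η T : ℝ}

lemma q_logU (h : NW a0 b₁ q A b n y V al s lam η) (hT0 : 0 < T) :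
    Real.log (Uq q n y T) = q * Real.log n + 2 * Real.log y - Real.log T / 2 := by
  have hn := h.env.n0
  have hy := h.env.y0
  unfold Uq
  simp (disch := positivity) only [Real.log_mul, Real.log_rpow, Real.log_pow, Real.log_div,
    Real.log_sqrt]
  push_cast
  ring

/-- the window of `T` of the second regime in logarithmic form -/
lemma q_logT (h : NW a0 b₁ q A b n y V al s lam η) (hT : (n : ℝ) ^ (30 * q) * y ^ 2 / 2 ≤ T) :
    0 < T ∧ 30 * q * Real.log n + 2 * Real.log y - Real.log 2 ≤ Real.log T := by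
  have hn := h.env.n0
  have hy := h.env.y0
  have hT0 : 0 < T := lt_of_lt_of_le (by positivity) hT
  have h1 := Real.log_le_log (by positivity) hT
  simp (disch := positivity) only [Real.log_mul, Real.log_rpow, Real.log_pow, Real.log_div] at h1
  push_cast at h1
  exact ⟨hT0, h1⟩

section sizes

variable (h : NW a0 b₁ q A b n y V al s lam η) (hT : (n : ℝ) ^ (30 * q) * y ^ 2 / 2 ≤ T)
include h hT

lemma z_logb {k : ℕ} (hk : k ≤ 8) :
    (k : ℝ) * Real.log b ≤ 8 * (q / 1000 * Real.log n) := by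
  obtain ⟨f1, f2, f3, f4, f5, f6, f7, f8, f9, f10, f11, f12, f13, f14⟩ := h.facts
  have hk' : (k : ℝ) ≤ 8 := by exact_mod_cast hk
  have hk0 : (0 : ℝ) ≤ k := Nat.cast_nonneg k
  have e1 : (k : ℝ) * Real.log b ≤ k * (q / 1000 * Real.log n) :=
    mul_le_mul_of_nonneg_left f3 hk0
  have e2 : (k : ℝ) * (q / 1000 * Real.log n) ≤ 8 * (q / 1000 * Real.log n) :=
    mul_le_mul_of_nonneg_right hk' (by linarith)
  linarith

/-- the cubic error -/
lemma z_cube {c : ℝ} (hc : 0 < c) (hcl : Real.log c ≤ 1000000) {k : ℕ} (hk : k ≤ 8) :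
    c * b ^ k * Uq q n y T ^ 3 ≤ V / 8 := by
  obtain ⟨f1, f2, f3, f4, f5, f6, f7, f8, f9, f10, f11, f12, f13, f14⟩ := h.facts
  obtain ⟨hT0, t1⟩ := q_logT h hT
  have hn := h.env.n0
  have hy := h.env.y0
  have hV := h.env.V0
  have hb := h.b0
  have hU0 := Uq_pos (q := q) hn hy hT0
  have hU := q_logU h (T := T) hT0
  have c2 := log_c 2 (by norm_num)
  have c8 := log_c 8 (by norm_num)
  have x1 := z_logb h hT hk
  refine le_of_log (by positivity) (by positivity) ?_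
  simp (disch := positivity) only [Real.log_mul, Real.log_pow, Real.log_div]
  rw [hU]
  push_cast
  linarith

/-- the hidden sites -/
lemma z_hid {c : ℝ} (hc : 0 < c) (hcl : Real.log c ≤ 1000000) {k : ℕ} (hk : k ≤ 8) {m : ℝ}
    (hm : (n : ℝ) ^ (1 - 110 * q) * y ^ 2 / 2 ≤ m) :
    c * b ^ k * (Uq q n y T / m) ≤ V * T / 8 := by
  obtain ⟨f1, f2, f3, f4, f5, f6, f7, f8, f9, f10, f11, f12, f13, f14⟩ := h.facts
  obtain ⟨hT0, t1⟩ := q_logT h hT
  have hn := h.env.n0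
  have hy := h.env.y0
  have hV := h.env.V0
  have hb := h.b0
  have hL := h.env.L1
  have hU0 := Uq_pos (q := q) hn hy hT0
  have hU := q_logU h (T := T) hT0
  have c2 := log_c 2 (by norm_num)
  have c8 := log_c 8 (by norm_num)
  have x1 := z_logb h hT hk
  have h1 : c * b ^ k * (Uq q n y T / m) ≤
      c * b ^ k * (Uq q n y T / ((n : ℝ) ^ (1 - 110 * q) * y ^ 2 / 2)) := by
    gcongr
  refine h1.trans ?_
  refine le_of_log (by positivity) (by positivity) ?_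
  simp (disch := positivity) only [Real.log_mul, Real.log_pow, Real.log_div, Real.log_rpow]
  rw [hU]
  push_cast
  linarith

/-- the field of the amplitude -/
lemma z_gg {c : ℝ} (hc : 0 < c) (hcl : Real.log c ≤ 1000000) {k : ℕ} (hk : k ≤ 8) :
    c * b ^ k * ((lam / (s ^ 2 * n)) ^ 2 * Uq q n y T) ≤ V * T / 8 := by
  obtain ⟨f1, f2, f3, f4, f5, f6, f7, f8, f9, f10, f11, f12, f13, f14⟩ := h.facts
  obtain ⟨hT0, t1⟩ := q_logT h hT
  have hn := h.env.n0
  have hy := h.env.y0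
  have hV := h.env.V0
  have hb := h.b0
  have hL := h.env.L1
  have hs := h.kw.s0
  have hl := h.kw.l0
  have hU0 := Uq_pos (q := q) hn hy hT0
  have hU := q_logU h (T := T) hT0
  have c2 := log_c 2 (by norm_num)
  have c8 := log_c 8 (by norm_num)
  have x1 := z_logb h hT hk
  refine le_of_log (by positivity) (by positivity) ?_
  simp (disch := positivity) only [Real.log_mul, Real.log_pow, Real.log_div, Real.log_rpow]
  rw [hU]
  push_cast
  linarith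

/-- the stuck amplitude -/
lemma z_st {c : ℝ} (hc : 0 < c) (hcl : Real.log c ≤ 1000000) {k : ℕ} (hk : k ≤ 8) :
    c * b ^ k * ((n : ℝ) ^ (3 * q) * (n : ℝ) ^ (-(10 : ℝ))) ≤ V * T / 8 := by
  obtain ⟨f1, f2, f3, f4, f5, f6, f7, f8, f9, f10, f11, f12, f13, f14⟩ := h.facts
  obtain ⟨hT0, t1⟩ := q_logT h hT
  have hn := h.env.n0
  have hy := h.env.y0
  have hV := h.env.V0
  have hb := h.b0
  have hL := h.env.L1
  have c2 := log_c 2 (by norm_num)
  have c8 := log_c 8 (by norm_num)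
  have x1 := z_logb h hT hk
  refine le_of_log (by positivity) (by positivity) ?_
  simp (disch := positivity) only [Real.log_mul, Real.log_pow, Real.log_div, Real.log_rpow]
  push_cast
  linarith

/-- the revealed share -/
lemma z_rho {c : ℝ} (hc : 0 < c) (hcl : Real.log c ≤ 1000000) {k : ℕ} (hk : k ≤ 8) :
    c * b ^ k * (Uq q n y T / (V * n)) ≤ V / 8 := by
  obtain ⟨f1, f2, f3, f4, f5, f6, f7, f8, f9, f10, f11, f12, f13, f14⟩ := h.facts
  obtain ⟨hT0, t1⟩ := q_logT h hT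
  have hn := h.env.n0
  have hy := h.env.y0
  have hV := h.env.V0
  have hb := h.b0
  have hL := h.env.L1
  have hU0 := Uq_pos (q := q) hn hy hT0
  have hU := q_logU h (T := T) hT0
  have c2 := log_c 2 (by norm_num)
  have c8 := log_c 8 (by norm_num)
  have x1 := z_logb h hT hk
  refine le_of_log (by positivity) (by positivity) ?_
  simp (disch := positivity) only [Real.log_mul, Real.log_pow, Real.log_div, Real.log_rpow]
  rw [hU]
  push_cast
  linarith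

/-- the response -/
lemma z_X {c : ℝ} (hc : 0 < c) (hcl : Real.log c ≤ 1000000) {k : ℕ} (hk : k ≤ 8) :
    c * b ^ k * (Uq q n y T ^ 3 / ((n : ℝ) ^ (-(160 * q)) * V * n)) ≤ V ^ 2 / 64 := by
  obtain ⟨f1, f2, f3, f4, f5, f6, f7, f8, f9, f10, f11, f12, f13, f14⟩ := h.facts
  obtain ⟨hT0, t1⟩ := q_logT h hT
  have hn := h.env.n0
  have hy := h.env.y0
  have hV := h.env.V0
  have hb := h.b0
  have hL := h.env.L1
  have hU0 := Uq_pos (q := q) hn hy hT0
  have hU := q_logU h (T := T) hT0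
  have c2 := log_c 2 (by norm_num)
  have c8 := log_c 64 (by norm_num)
  have x1 := z_logb h hT hk
  refine le_of_log (by positivity) (by positivity) ?_
  simp (disch := positivity) only [Real.log_mul, Real.log_pow, Real.log_div, Real.log_rpow]
  rw [hU]
  push_cast
  linarith

end sizes

/-! ### the pure inequality -/

/-- the quadratic inequality -/
lemma q_real {T qv M R V K1 K2 K3 K4 K5 K6 K7 c x : ℝ} (hT : 0 < T) (hq : 0 ≤ qv)
    (hM : T / 2 ≤ M) (hV : 0 ≤ V)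
    (key : M * qv ≤ K1 + K2 + K3 + K4 + K5 + K6 + K7 + x * √qv)
    (h1 : K1 ≤ c * V) (h2 : K2 ≤ 243 * V) (h3 : K3 ≤ V) (h4 : K4 ≤ V) (h5 : K5 ≤ V)
    (h6 : K6 ≤ V) (h7 : K7 ≤ V) (h8 : x ^ 2 ≤ V * T / 2) (hR : 8 / 3 * (c + 249) ≤ R) :
    qv ≤ R * (V / T) := by
  have hs : √qv ^ 2 = qv := Real.sq_sqrt hq
  have e1 : x * √qv ≤ V + T / 8 * qv := by
    have e2 : 0 ≤ (T / 4 * √qv - x) ^ 2 := sq_nonneg _
    have e2' : (T / 4 * √qv - x) ^ 2 = T ^ 2 / 16 * √qv ^ 2 - T / 2 * (x * √qv) + x ^ 2 := by ring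
    rw [e2', hs] at e2
    have e3 : T * (x * √qv) ≤ T * (V + T / 8 * qv) := by linarith
    exact le_of_mul_le_mul_left e3 hT
  have e4 : T / 2 * qv ≤ M * qv := mul_le_mul_of_nonneg_right hM hq
  have e5 : 3 / 8 * T * qv ≤ (c + 249) * V := by linarith
  have e6 : T * qv ≤ R * V := by
    have e7 : 8 / 3 * (c + 249) * V ≤ R * V := mul_le_mul_of_nonneg_right hR hV
    linarith
  have e8 : R * (V / T) = R * V / T := by ring
  rw [e8, le_div_iff₀ hT]
  linarith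

/-- the factor `(1 + η)²` -/
lemma alg_e8 {η r x : ℝ} (hη : 0 ≤ η) (hη1 : η ≤ 1 / 1000) (hr : 0 ≤ r)
    (hx : x = 8 * (1 + η) ^ 2 * r) : x ≤ 8 * (101 / 100) * r := by
  rw [hx]
  have h4 : (1 + η) ^ 2 ≤ 101 / 100 := by nlinarith
  exact mul_le_mul_of_nonneg_right (by linarith) hr

/-- the square of the linear error -/
lemma alg_dd {K T b a1 a2 a3 r G Z V x : ℝ} (hK : K ^ 2 ≤ 101 / 100 * b ^ 2) (hT : 0 ≤ T)
    (hT1 : T ≤ 1) (s1 : a1 ^ 2 ≤ 8 * (101 / 100) * r) (s2 : a2 ^ 2 ≤ G) (s3 : a3 ^ 2 ≤ Z)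
    (x1 : 104 * b ^ 2 * r ≤ V * T / 8) (x2 : 13 * b ^ 2 * G ≤ V * T / 8)
    (x3 : 13 * b ^ 2 * Z ≤ V * T / 8)
    (hx : x = 4 * K ^ 2 * (1 - T) ^ 2 * (a1 + a2 + a3) ^ 2) : x ≤ V * T / 2 := by
  have e2 : (a1 + a2 + a3) ^ 2 ≤ 3 * (a1 ^ 2 + a2 ^ 2 + a3 ^ 2) := by
    nlinarith [sq_nonneg (a1 - a2), sq_nonneg (a2 - a3), sq_nonneg (a1 - a3)]
  have e3 : (1 - T) ^ 2 ≤ 1 := by nlinarith
  have e4 : 4 * K ^ 2 * (1 - T) ^ 2 * (a1 + a2 + a3) ^ 2 ≤
      4 * (101 / 100 * b ^ 2) * 1 * (3 * (a1 ^ 2 + a2 ^ 2 + a3 ^ 2)) :=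
    mul_le_mul (mul_le_mul (by linarith) e3 (sq_nonneg _) (by positivity)) e2
      (sq_nonneg _) (by positivity)
  rw [hx]
  refine e4.trans ?_
  have hb := sq_nonneg b
  have e5 := mul_le_mul_of_nonneg_left s1 hb
  have e6 := mul_le_mul_of_nonneg_left s2 hb
  have e7 := mul_le_mul_of_nonneg_left s3 hb
  have f1 : 0 ≤ b ^ 2 * a1 ^ 2 := by positivity
  have f2 : 0 ≤ b ^ 2 * a2 ^ 2 := by positivity
  have f3 : 0 ≤ b ^ 2 * a3 ^ 2 := by positivity
  linarith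

section comp

variable (h : NW a0 b₁ q A b n y V al s lam η)
include h

/-- the coefficient `kp` -/
lemma kp_bd : 0 < (1 + al) / b ∧ (1 + al) / b ≤ 1001 / 1000 / b ∧
    ((1 + al) / b * b ^ 2) ^ 2 ≤ 101 / 100 * b ^ 2 := by
  have hb := h.b0
  have hal := abs_le.1 h.al_small
  refine ⟨div_pos (by linarith) hb, div_le_div_of_nonneg_right (by linarith) hb.le, ?_⟩
  have e : (1 + al) / b * b ^ 2 = (1 + al) * b := by field_simp
  rw [e, mul_pow]
  refine mul_le_mul_of_nonneg_right ?_ (sq_nonneg b)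
  nlinarith

/-- the mass -/
lemma mass_le (hT : (n : ℝ) ^ (30 * q) * y ^ 2 / 2 ≤ T) (hT1 : T ≤ 1)
    (hal : 6 * al ≤ T) {S : ℝ} (hS0 : 0 < S) (hS : S ≤ n) :
    T / 2 ≤ n / S - ((1 + al) / b) ^ 2 * (b ^ 2 * (1 - T)) := by
  obtain ⟨hT0, t1⟩ := q_logT h hT
  have hn := h.env.n0
  have hy := h.env.y0
  have hb := h.b0
  have ha1 := abs_le.1 h.al_small
  have e : ((1 + al) / b) ^ 2 * (b ^ 2 * (1 - T)) = (1 + al) ^ 2 * (1 - T) := by
    field_simp
  rw [e]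
  have e1 : 1 ≤ n / S := by
    rw [le_div_iff₀ hS0]
    linarith
  have e2 : (1 + al) ^ 2 ≤ 1 + T / 2 := by
    rcases le_total al 0 with h0 | h0
    · nlinarith
    · nlinarith
  have e3 : (1 + al) ^ 2 * (1 - T) ≤ (1 + T / 2) * (1 - T) :=
    mul_le_mul_of_nonneg_right e2 (by linarith)
  nlinarith

/-- the fields -/
lemma wF_le {u g : ℝ} (hu0 : 0 ≤ u) (hu1 : u ≤ 1) (hg0 : 0 ≤ g) (hg1 : g ≤ 1) :
    0 ≤ (1 + η) ^ 2 * (u * (V - s ^ 2) + g * s ^ 2) ∧
      (1 + η) ^ 2 * (u * (V - s ^ 2) + g * s ^ 2) ≤ 101 / 100 * V := by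
  obtain ⟨k1, k2, k3, k4, k5, k6, k7, k8⟩ := h.bd
  have hV := h.env.V0
  have hη := h.kw.η0
  have h0 : 0 ≤ u * (V - s ^ 2) := mul_nonneg hu0 (by linarith)
  have h1 : 0 ≤ g * s ^ 2 := mul_nonneg hg0 (sq_nonneg s)
  have h2 : u * (V - s ^ 2) ≤ V - s ^ 2 := mul_le_of_le_one_left (by linarith) hu1
  have h3 : g * s ^ 2 ≤ s ^ 2 := mul_le_of_le_one_left (sq_nonneg s) hg1
  have h4 : (1 + η) ^ 2 ≤ 101 / 100 := by nlinarith
  refine ⟨by positivity, ?_⟩
  exact mul_le_mul h4 (by linarith) (by linarith) (by norm_num)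

/-- the field against the a priori size -/
lemma wF_U (hT : (n : ℝ) ^ (30 * q) * y ^ 2 / 2 ≤ T) (hT1 : T ≤ 1) :
    2 * V ≤ Uq q n y T := by
  obtain ⟨f1, f2, f3, f4, f5, f6, f7, f8, f9, f10, f11, f12, f13, f14⟩ := h.facts
  obtain ⟨hT0, t1⟩ := q_logT h hT
  have hn := h.env.n0
  have hy := h.env.y0
  have hV := h.env.V0
  have hU0 := Uq_pos (q := q) hn hy hT0
  have hU := q_logU h (T := T) hT0
  have hlT : Real.log T ≤ 0 := Real.log_nonpos hT0.le hT1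
  have c2 := log_c 2 (by norm_num)
  refine le_of_log (by positivity) hU0 ?_
  simp (disch := positivity) only [Real.log_mul]
  rw [hU]
  linarith

/-- the cubic error, all terms -/
lemma NL_le (hT : (n : ℝ) ^ (30 * q) * y ^ 2 / 2 ≤ T) (hT1 : T ≤ 1) {w cc m4 : ℝ}
    (hw0 : 0 ≤ w) (hw : w ≤ 101 / 100 * V) (hcc : cc ≤ Uq q n y T ^ 2)
    (hcc0 : 0 ≤ cc) (hm0 : 0 ≤ m4) (hm4 : m4 ≤ Uq q n y T ^ 4) :
    6000000 * (1 + η) ^ 2 * (Uq q n y T * (2 * b ^ 4 * (1 - T) ^ 2 * cc + 2 * w ^ 2) +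
      (8 * b ^ 8 * (1 - T) ^ 4 * m4 + 8 * w ^ 4) / Uq q n y T) ≤ V := by
  obtain ⟨hT0, t1⟩ := q_logT h hT
  obtain ⟨k1, k2, k3, k4, k5, k6, k7, k8⟩ := h.bd
  have hn := h.env.n0
  have hy := h.env.y0
  have hV := h.env.V0
  have hb := h.b0
  have hη := h.kw.η0
  have hU0 := Uq_pos (q := q) hn hy hT0
  have hwU := wF_U h hT hT1
  have hwU' : w ≤ Uq q n y T := by linarith
  set U := Uq q n y T with hUd
  have h4 : (1 + η) ^ 2 ≤ 101 / 100 := by nlinarith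
  have ht1 : (1 - T) ^ 2 ≤ 1 := by nlinarith
  have ht2 : (1 - T) ^ 4 ≤ 1 := pow_le_one₀ (by linarith) (by linarith)
  have c1 : Real.log (12120000 : ℝ) ≤ 1000000 := by
    have e := Real.log_le_sub_one_of_pos (show (0 : ℝ) < 12120000 / 10000000 by norm_num)
    have e2 : Real.log (10000000 : ℝ) ≤ 100 := by
      have : (10000000 : ℝ) = 10 ^ 7 := by norm_num
      rw [this, Real.log_pow]
      have e3 := log_c 10 (by norm_num)
      push_cast
      linarith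
    have e3 : (12120000 : ℝ) = 12120000 / 10000000 * 10000000 := by norm_num
    rw [e3, Real.log_mul (by norm_num) (by norm_num)]
    linarith
  have c4 : Real.log (48480000 : ℝ) ≤ 1000000 := by
    have e3 : (48480000 : ℝ) = 4 * 12120000 := by norm_num
    rw [e3, Real.log_mul (by norm_num) (by norm_num)]
    have e5 : Real.log (12120000 : ℝ) ≤ 999000 := by
      have e := Real.log_le_sub_one_of_pos (show (0 : ℝ) < 12120000 / 10000000 by norm_num)
      have e2 : Real.log (10000000 : ℝ) ≤ 100 := by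
        have : (10000000 : ℝ) = 10 ^ 7 := by norm_num
        rw [this, Real.log_pow]
        have e3 := log_c 10 (by norm_num)
        push_cast
        linarith
      have e3 : (12120000 : ℝ) = 12120000 / 10000000 * 10000000 := by norm_num
      rw [e3, Real.log_mul (by norm_num) (by norm_num)]
      linarith
    have e4 := log_c 4 (by norm_num)
    linarith
  have x1 := z_cube h hT (c := 12120000) (by norm_num) c1 (k := 4) (by norm_num)
  have x2 := z_cube h hT (c := 12120000) (by norm_num) c1 (k := 0) (by norm_num)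
  have x3 := z_cube h hT (c := 48480000) (by norm_num) c4 (k := 8) (by norm_num)
  have x4 := z_cube h hT (c := 48480000) (by norm_num) c4 (k := 0) (by norm_num)
  rw [← hUd] at x1 x2 x3 x4
  rw [pow_zero, mul_one] at x2 x4
  have y1 : U * (2 * b ^ 4 * (1 - T) ^ 2 * cc + 2 * w ^ 2) ≤
      2 * b ^ 4 * U ^ 3 + 2 * U ^ 3 := by
    have z1 : 2 * b ^ 4 * (1 - T) ^ 2 * cc ≤ 2 * b ^ 4 * 1 * U ^ 2 := by gcongr
    have z2 : w ^ 2 ≤ U ^ 2 := pow_le_pow_left₀ hw0 hwU' 2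
    nlinarith
  have y2 : (8 * b ^ 8 * (1 - T) ^ 4 * m4 + 8 * w ^ 4) / U ≤
      8 * b ^ 8 * U ^ 3 + 8 * U ^ 3 := by
    have z1 : 8 * b ^ 8 * (1 - T) ^ 4 * m4 ≤ 8 * b ^ 8 * 1 * U ^ 4 := by gcongr
    have z2 : w ^ 4 ≤ U ^ 4 := pow_le_pow_left₀ hw0 hwU' 4
    rw [div_le_iff₀ hU0]
    nlinarith
  have y0 : 0 ≤ U * (2 * b ^ 4 * (1 - T) ^ 2 * cc + 2 * w ^ 2) +
      (8 * b ^ 8 * (1 - T) ^ 4 * m4 + 8 * w ^ 4) / U := by positivity
  have y3 : 6000000 * (1 + η) ^ 2 * (U * (2 * b ^ 4 * (1 - T) ^ 2 * cc + 2 * w ^ 2) +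
      (8 * b ^ 8 * (1 - T) ^ 4 * m4 + 8 * w ^ 4) / U) ≤
      6060000 * (2 * b ^ 4 * U ^ 3 + 2 * U ^ 3 + (8 * b ^ 8 * U ^ 3 + 8 * U ^ 3)) := by
    refine mul_le_mul (by linarith) (by linarith) y0 (by norm_num)
  linarith

/-- the number `|r0| + 1` times `1 + η` -/
lemma V0_bd : 0 ≤ (|rq b y al| + 1) * (1 + η) ∧
    ((|rq b y al| + 1) * (1 + η)) ^ 2 ≤ (n : ℝ) ^ (3 * q) ∧
      (|rq b y al| + 1) * (1 + η) ≤ (n : ℝ) ^ (3 * q) := by
  obtain ⟨f1, f2, f3, f4, f5, f6, f7, f8, f9, f10, f11, f12, f13, f14⟩ := h.facts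
  obtain ⟨k1, k2, k3, k4, k5, k6, k7, k8⟩ := h.bd
  have hn := h.env.n0
  have hη := h.kw.η0
  have h1 := h.rq_le
  have h0 : 0 ≤ |rq b y al| + 1 := by positivity
  have hN : (0 : ℝ) < (n : ℝ) ^ q := by positivity
  have e0 : 0 ≤ (|rq b y al| + 1) * (1 + η) := by positivity
  have e1 : (|rq b y al| + 1) * (1 + η) ≤ 2 * (n : ℝ) ^ q := by nlinarith
  have c2 := log_c 2 (by norm_num)
  have c4 := log_c 4 (by norm_num)
  have e2 : 2 * (n : ℝ) ^ q ≤ (n : ℝ) ^ (3 * q) := by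
    refine le_of_log (by positivity) (by positivity) ?_
    simp (disch := positivity) only [Real.log_mul, Real.log_rpow]
    linarith
  have e3 : 4 * ((n : ℝ) ^ q) ^ 2 ≤ (n : ℝ) ^ (3 * q) := by
    refine le_of_log (by positivity) (by positivity) ?_
    simp (disch := positivity) only [Real.log_mul, Real.log_rpow, Real.log_pow]
    push_cast
    linarith
  refine ⟨e0, ?_, e1.trans e2⟩
  have e4 := pow_le_pow_left₀ e0 e1 2
  have e5 : (2 * (n : ℝ) ^ q) ^ 2 = 4 * ((n : ℝ) ^ q) ^ 2 := by ring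
  linarith

/-- the linear error `dd` -/
lemma dd_le (hT : (n : ℝ) ^ (30 * q) * y ^ 2 / 2 ≤ T) (hT1 : T ≤ 1) {m st : ℝ}
    (hm : (n : ℝ) ^ (1 - 110 * q) * y ^ 2 / 2 ≤ m) (hst0 : 0 ≤ st)
    (hst : st ≤ (n : ℝ) ^ (-(10 : ℝ))) :
    (2 * ((1 + al) / b) * (b ^ 2 * (1 - T) * (√(8 * (1 + η) ^ 2 * Uq q n y T / m) +
      lam / (s ^ 2 * n) * √(Uq q n y T) + (|rq b y al| + 1) * (1 + η) * √st))) ^ 2 ≤
      V * T / 2 := by
  obtain ⟨hT0, t1⟩ := q_logT h hT
  obtain ⟨k1, k2, k3, k4, k5, k6, k7, k8⟩ := h.bd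
  obtain ⟨p1, p2, p3⟩ := kp_bd h
  obtain ⟨v1, v2, v3⟩ := V0_bd h
  have hn := h.env.n0
  have hy := h.env.y0
  have hη := h.kw.η0
  have hU0 := Uq_pos (q := q) hn hy hT0
  have hm0 : 0 < m := lt_of_lt_of_le (by positivity) hm
  have c100 : Real.log (104 : ℝ) ≤ 1000000 := by
    have := log_c 104 (by norm_num)
    linarith
  have c13 : Real.log (13 : ℝ) ≤ 1000000 := by
    have := log_c 13 (by norm_num)
    linarith
  have x1 := z_hid h hT (c := 104) (by norm_num) c100 (k := 2) (by norm_num) hm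
  have x2 := z_gg h hT (c := 13) (by norm_num) c13 (k := 2) (by norm_num)
  have x3 := z_st h hT (c := 13) (by norm_num) c13 (k := 2) (by norm_num)
  have s1 : √(8 * (1 + η) ^ 2 * Uq q n y T / m) ^ 2 ≤ 8 * (101 / 100) * (Uq q n y T / m) := by
    rw [Real.sq_sqrt (by positivity)]
    exact alg_e8 hη.le k3 (div_pos hU0 hm0).le (by ring)
  have s2 : (lam / (s ^ 2 * n) * √(Uq q n y T)) ^ 2 = (lam / (s ^ 2 * n)) ^ 2 * Uq q n y T := by
    rw [mul_pow, Real.sq_sqrt hU0.le]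
  have s3 : ((|rq b y al| + 1) * (1 + η) * √st) ^ 2 ≤
      (n : ℝ) ^ (3 * q) * (n : ℝ) ^ (-(10 : ℝ)) := by
    rw [mul_pow, Real.sq_sqrt hst0]
    exact mul_le_mul v2 hst hst0 (by positivity)
  exact alg_dd p3 hT0.le hT1 s1 s2.le s3 x1 x2 x3 (by ring)

/-- the revealed share -/
lemma dl_bd : 0 < (n : ℝ) ^ (-(80 * q)) ∧ (n : ℝ) ^ (-(80 * q)) ≤ 1 / 4 := by
  obtain ⟨f1, f2, f3, f4, f5, f6, f7, f8, f9, f10, f11, f12, f13, f14⟩ := h.facts
  have hn := h.env.n0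
  have c1 := log_c 4 (by norm_num)
  refine ⟨by positivity, ?_⟩
  refine le_of_log (by positivity) (by positivity) ?_
  simp (disch := positivity) only [Real.log_rpow, Real.log_div, Real.log_one]
  linarith

lemma rho_bd (hs2 : s ^ 2 = (n : ℝ) ^ (-(80 * q)) * V) {g : ℝ} (hg0 : 0 ≤ g)
    (hg1 : g ≤ 2 * (n : ℝ) ^ (-(80 * q))) :
    0 ≤ g * s ^ 2 / ((1 - g) * s ^ 2 * s ^ 2) / n ∧
      g * s ^ 2 / ((1 - g) * s ^ 2 * s ^ 2) / n ≤ 4 * (1 / (V * n)) := by
  have hn := h.env.n0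
  have hV := h.env.V0
  have hs := h.kw.s0
  obtain ⟨d0, d1⟩ := dl_bd h
  have e1 : 1 / 2 ≤ 1 - g := by linarith
  have e0 : 0 < 1 - g := by linarith
  have e2 : 0 < s ^ 2 := by positivity
  have e3 : g * s ^ 2 / ((1 - g) * s ^ 2 * s ^ 2) / n = g / ((1 - g) * (s ^ 2 * n)) := by
    field_simp
  rw [e3]
  refine ⟨by positivity, ?_⟩
  rw [div_le_iff₀ (by positivity), hs2]
  have e4 : 4 * (1 / (V * n)) * ((1 - g) * ((n : ℝ) ^ (-(80 * q)) * V * n)) =
      4 * (1 - g) * (n : ℝ) ^ (-(80 * q)) := by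
    field_simp
  rw [e4]
  have e5 : 1 / 2 * (n : ℝ) ^ (-(80 * q)) ≤ (1 - g) * (n : ℝ) ^ (-(80 * q)) :=
    mul_le_mul_of_nonneg_right e1 d0.le
  linarith

omit h in
/-- the algebra of the squared norm of the defect -/
lemma alg_pv {b T a1 a2 r U sr W sp G Z R V : ℝ} (hT : 0 ≤ T) (hT1 : T ≤ 1)
    (s1 : a1 ^ 2 ≤ G) (s2 : a2 ^ 2 ≤ Z) (s3 : r * U ≤ 4 * R) (s4 : sr * (W * sp) ≤ Z)
    (h0 : 0 ≤ r * U) (h1 : 0 ≤ sr * (W * sp))
    (x1 : 49 * b ^ 2 * G ≤ V / 8) (x2 : 73 * b ^ 2 * Z ≤ V / 8) (x3 : 98 * b ^ 2 * R ≤ V / 8)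
    (hV : 0 ≤ V) :
    6 * (b ^ 2 * (1 - T) * (2 * (2 * (a1 + a2) ^ 2 + 2 * r * U + 2 * sr * (W * sp)))) ≤ V := by
  have hb := sq_nonneg b
  have e1 : (a1 + a2) ^ 2 ≤ 2 * G + 2 * Z := by nlinarith [sq_nonneg (a1 - a2)]
  have e2 : 2 * (a1 + a2) ^ 2 + 2 * r * U + 2 * sr * (W * sp) ≤ 4 * G + 8 * R + 6 * Z := by
    linarith
  have e3 : 0 ≤ 2 * (a1 + a2) ^ 2 + 2 * r * U + 2 * sr * (W * sp) := by
    have := sq_nonneg (a1 + a2)
    linarith
  have e4 : b ^ 2 * (1 - T) ≤ b ^ 2 := mul_le_of_le_one_right hb (by linarith)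
  have e5 : b ^ 2 * (1 - T) * (2 * (a1 + a2) ^ 2 + 2 * r * U + 2 * sr * (W * sp)) ≤
      b ^ 2 * (4 * G + 8 * R + 6 * Z) := mul_le_mul e4 e2 e3 hb
  have e6 : 6 * (b ^ 2 * (1 - T) * (2 * (2 * (a1 + a2) ^ 2 + 2 * r * U + 2 * sr * (W * sp)))) =
      12 * (b ^ 2 * (1 - T) * (2 * (a1 + a2) ^ 2 + 2 * r * U + 2 * sr * (W * sp))) := by ring
  rw [e6]
  linarith

/-- the squared norm of the defect -/
lemma pv_le (hT : (n : ℝ) ^ (30 * q) * y ^ 2 / 2 ≤ T) (hT1 : T ≤ 1) {r st p : ℝ}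
    (hr0 : 0 ≤ r) (hr : r ≤ 4 * (1 / (V * n))) (hst0 : 0 ≤ st)
    (hst : st ≤ (n : ℝ) ^ (-(10 : ℝ))) (hp : p ≤ (n : ℝ) ^ (-(20 : ℝ))) :
    6 * (b ^ 2 * (1 - T) * (2 * (2 * (lam / (s ^ 2 * n) * √(Uq q n y T) +
      (|rq b y al| + 1) * (1 + η) * √st) ^ 2 + 2 * r * Uq q n y T +
        2 * √r * ((|rq b y al| + 1) * (1 + η) * √p)))) ≤ V := by
  obtain ⟨hT0, t1⟩ := q_logT h hT
  obtain ⟨v1, v2, v3⟩ := V0_bd h
  have hn := h.env.n0
  have hy := h.env.y0
  have hV := h.env.V0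
  have hU0 := Uq_pos (q := q) hn hy hT0
  have c1 : Real.log (49 : ℝ) ≤ 1000000 := by
    have := log_c 49 (by norm_num)
    linarith
  have c3 : Real.log (73 : ℝ) ≤ 1000000 := by
    have := log_c 73 (by norm_num)
    linarith
  have c2 : Real.log (98 : ℝ) ≤ 1000000 := by
    have := log_c 98 (by norm_num)
    linarith
  have x1 := z_gg h hT (c := 49) (by norm_num) c1 (k := 2) (by norm_num)
  have x2 := z_st h hT (c := 73) (by norm_num) c3 (k := 2) (by norm_num)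
  have x3 := z_rho h hT (c := 98) (by norm_num) c2 (k := 2) (by norm_num)
  have hVT : V * T / 8 ≤ V / 8 :=
    div_le_div_of_nonneg_right (mul_le_of_le_one_right hV.le hT1) (by norm_num)
  have hr1 : √r ≤ 1 := by
    rw [Real.sqrt_le_one]
    refine hr.trans ?_
    obtain ⟨f1, f2, f3, f4, f5, f6, f7, f8, f9, f10, f11, f12, f13, f14⟩ := h.facts
    have c4 := log_c 4 (by norm_num)
    have hL := h.env.L1
    refine le_of_log (by positivity) (by positivity) ?_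
    simp (disch := positivity) only [Real.log_mul, Real.log_div, Real.log_one]
    linarith
  have hsp : √p ≤ (n : ℝ) ^ (-(10 : ℝ)) := by
    refine (Real.sqrt_le_sqrt hp).trans (le_of_eq ?_)
    rw [Real.sqrt_eq_rpow, ← Real.rpow_mul hn.le]
    norm_num
  have y0 : (lam / (s ^ 2 * n) * √(Uq q n y T)) ^ 2 = (lam / (s ^ 2 * n)) ^ 2 * Uq q n y T := by
    rw [mul_pow, Real.sq_sqrt hU0.le]
  have y1 : ((|rq b y al| + 1) * (1 + η) * √st) ^ 2 ≤
      (n : ℝ) ^ (3 * q) * (n : ℝ) ^ (-(10 : ℝ)) := by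
    rw [mul_pow, Real.sq_sqrt hst0]
    exact mul_le_mul v2 hst hst0 (by positivity)
  have y2 : √r * ((|rq b y al| + 1) * (1 + η) * √p) ≤
      (n : ℝ) ^ (3 * q) * (n : ℝ) ^ (-(10 : ℝ)) := by
    have e1 : (|rq b y al| + 1) * (1 + η) * √p ≤ (n : ℝ) ^ (3 * q) * (n : ℝ) ^ (-(10 : ℝ)) :=
      mul_le_mul v3 hsp (Real.sqrt_nonneg _) (by positivity)
    have e2 : 0 ≤ (|rq b y al| + 1) * (1 + η) * √p := mul_nonneg v1 (Real.sqrt_nonneg _)
    calc √r * ((|rq b y al| + 1) * (1 + η) * √p) ≤ 1 * ((|rq b y al| + 1) * (1 + η) * √p) :=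
          mul_le_mul_of_nonneg_right hr1 e2
      _ ≤ _ := by rw [one_mul]; exact e1
  have y3 : r * Uq q n y T ≤ 4 * (Uq q n y T / (V * n)) := by
    refine (mul_le_mul_of_nonneg_right hr hU0.le).trans (le_of_eq (by ring))
  exact alg_pv hT0.le hT1 y0.le y1 y3 y2 (mul_nonneg hr0 hU0.le)
    (mul_nonneg (Real.sqrt_nonneg _) (mul_nonneg v1 (Real.sqrt_nonneg _)))
    (x1.trans hVT) (x2.trans hVT) x3 hV.le

/-- the stuck probability against the a priori size -/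
lemma st_U (hT : (n : ℝ) ^ (30 * q) * y ^ 2 / 2 ≤ T) (hT1 : T ≤ 1) :
    (n : ℝ) ^ (-(10 : ℝ)) ≤ Uq q n y T ^ 2 := by
  obtain ⟨f1, f2, f3, f4, f5, f6, f7, f8, f9, f10, f11, f12, f13, f14⟩ := h.facts
  obtain ⟨hT0, t1⟩ := q_logT h hT
  have hn := h.env.n0
  have hy := h.env.y0
  have hL := h.env.L1
  have hU0 := Uq_pos (q := q) hn hy hT0
  have hU := q_logU h (T := T) hT0
  have hlT : Real.log T ≤ 0 := Real.log_nonpos hT0.le hT1
  refine le_of_log (by positivity) (by positivity) ?_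
  simp (disch := positivity) only [Real.log_rpow, Real.log_pow]
  rw [hU]
  push_cast
  linarith

/-- the response term -/
lemma X_le (hT : (n : ℝ) ^ (30 * q) * y ^ 2 / 2 ≤ T) (hT1 : T ≤ 1) {X st : ℝ} (hX0 : 0 ≤ X)
    (hX : X ≤ 26 * (Uq q n y T / ((n : ℝ) ^ (-(160 * q)) * V * n)))
    (hst : st ≤ (n : ℝ) ^ (-(10 : ℝ))) :
    2 * ((1 + al) / b) * (b ^ 2 * (1 - T) * (√X * √(2 * Uq q n y T ^ 2 + 2 * st))) ≤ V := by
  obtain ⟨hT0, t1⟩ := q_logT h hT
  obtain ⟨p1, p2, p3⟩ := kp_bd h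
  have hn := h.env.n0
  have hy := h.env.y0
  have hV := h.env.V0
  have hU0 := Uq_pos (q := q) hn hy hT0
  have hst' := st_U h hT hT1
  have c1 : Real.log (421 : ℝ) ≤ 1000000 := by
    have := log_c 421 (by norm_num)
    linarith
  have x1 := z_X h hT (c := 421) (by norm_num) c1 (k := 2) (by norm_num)
  have e1 : (2 * ((1 + al) / b) * (b ^ 2 * (1 - T) * (√X * √(2 * Uq q n y T ^ 2 + 2 * st)))) =
      √((2 * ((1 + al) / b * b ^ 2) * (1 - T)) ^ 2 * (X * (2 * Uq q n y T ^ 2 + 2 * st))) := by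
    have hb := h.b0
    rw [Real.sqrt_mul (sq_nonneg _), Real.sqrt_mul hX0, Real.sqrt_sq (by
      have : 0 ≤ 1 - T := by linarith
      positivity)]
    ring
  rw [e1]
  refine Real.sqrt_le_iff.2 ⟨hV.le, ?_⟩
  have e2 : (2 * ((1 + al) / b * b ^ 2) * (1 - T)) ^ 2 ≤ 4 * (101 / 100 * b ^ 2) := by
    have e3 : (1 - T) ^ 2 ≤ 1 := by nlinarith
    have e4 : (2 * ((1 + al) / b * b ^ 2) * (1 - T)) ^ 2 =
        4 * ((1 + al) / b * b ^ 2) ^ 2 * (1 - T) ^ 2 := by ring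
    rw [e4]
    calc 4 * ((1 + al) / b * b ^ 2) ^ 2 * (1 - T) ^ 2 ≤ 4 * (101 / 100 * b ^ 2) * 1 :=
          mul_le_mul (by linarith) e3 (sq_nonneg _) (by positivity)
      _ = _ := mul_one _
  have e5 : X * (2 * Uq q n y T ^ 2 + 2 * st) ≤
      26 * (Uq q n y T / ((n : ℝ) ^ (-(160 * q)) * V * n)) * (4 * Uq q n y T ^ 2) := by
    refine (mul_le_mul_of_nonneg_left (show 2 * Uq q n y T ^ 2 + 2 * st ≤ 4 * Uq q n y T ^ 2 by
      linarith) hX0).trans ?_
    exact mul_le_mul_of_nonneg_right hX (by positivity)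
  have e6 : (2 * ((1 + al) / b * b ^ 2) * (1 - T)) ^ 2 * (X * (2 * Uq q n y T ^ 2 + 2 * st)) ≤
      4 * (101 / 100 * b ^ 2) * (26 * (Uq q n y T / ((n : ℝ) ^ (-(160 * q)) * V * n)) *
        (4 * Uq q n y T ^ 2)) := by
    refine (mul_le_mul_of_nonneg_left e5 (sq_nonneg _)).trans ?_
    exact mul_le_mul_of_nonneg_right e2 (by positivity)
  refine e6.trans ?_
  have e7 : 4 * (101 / 100 * b ^ 2) * (26 * (Uq q n y T / ((n : ℝ) ^ (-(160 * q)) * V * n)) *
        (4 * Uq q n y T ^ 2)) =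
      42016 / 100 * b ^ 2 * (Uq q n y T ^ 3 / ((n : ℝ) ^ (-(160 * q)) * V * n)) := by ring
  rw [e7]
  have e8 : 0 ≤ b ^ 2 * (Uq q n y T ^ 3 / ((n : ℝ) ^ (-(160 * q)) * V * n)) := by positivity
  have e9 : 0 ≤ V ^ 2 := sq_nonneg V
  linarith

/-- the field term -/
lemma df_le {v st : ℝ} (hv0 : 0 ≤ v) (hv : v ≤ V) (hst0 : 0 ≤ st)
    (hst : st ≤ (n : ℝ) ^ (-(10 : ℝ))) :
    2 * ((1 + al) / b) * (v * ((1 + al) / b * η + lam / (s ^ 2 * n) +
      (|rq b y al| + 1) * (1 + η) * st)) ≤ V := by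
  obtain ⟨f1, f2, f3, f4, f5, f6, f7, f8, f9, f10, f11, f12, f13, f14⟩ := h.facts
  obtain ⟨p1, p2, p3⟩ := kp_bd h
  obtain ⟨v1, v2, v3⟩ := V0_bd h
  have hn := h.env.n0
  have hy := h.env.y0
  have hV := h.env.V0
  have hb := h.b0
  have hη := h.kw.η0
  have hs := h.kw.s0
  have hl := h.kw.l0
  have hL := h.env.L1
  have c8 := log_c 8 (by norm_num)
  have x1 : 8 / b * (8 / b * η) ≤ 1 := by
    refine le_of_log (by positivity) (by positivity) ?_
    simp (disch := positivity) only [Real.log_mul, Real.log_div, Real.log_one]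
    linarith
  have x2 : 8 / b * (lam / (s ^ 2 * n)) ≤ 1 := by
    refine le_of_log (by positivity) (by positivity) ?_
    simp (disch := positivity) only [Real.log_mul, Real.log_div, Real.log_one, Real.log_pow]
    push_cast
    linarith
  have x3 : 8 / b * ((n : ℝ) ^ (3 * q) * (n : ℝ) ^ (-(10 : ℝ))) ≤ 1 := by
    refine le_of_log (by positivity) (by positivity) ?_
    simp (disch := positivity) only [Real.log_mul, Real.log_div, Real.log_one, Real.log_rpow]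
    linarith
  have k0 : (1 + al) / b ≤ 8 / b := by
    refine p2.trans ?_
    exact div_le_div_of_nonneg_right (by norm_num) hb.le
  have k1 : (1 + al) / b ≤ 1001 / 1000 / b := p2
  have h8 : 0 < 8 / b := by positivity
  have e1 : (1 + al) / b * η + lam / (s ^ 2 * n) + (|rq b y al| + 1) * (1 + η) * st ≤
      8 / b * η + lam / (s ^ 2 * n) + (n : ℝ) ^ (3 * q) * (n : ℝ) ^ (-(10 : ℝ)) := by
    have y1 := mul_le_mul_of_nonneg_right k0 hη.le
    have y2 : (|rq b y al| + 1) * (1 + η) * st ≤ (n : ℝ) ^ (3 * q) * (n : ℝ) ^ (-(10 : ℝ)) :=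
      mul_le_mul v3 hst hst0 (by positivity)
    linarith
  have e0 : 0 ≤ (1 + al) / b * η + lam / (s ^ 2 * n) + (|rq b y al| + 1) * (1 + η) * st := by
    positivity
  have e2 : 2 * ((1 + al) / b) * ((1 + al) / b * η + lam / (s ^ 2 * n) +
      (|rq b y al| + 1) * (1 + η) * st) ≤ 1 := by
    have y3 : 2 * ((1 + al) / b) ≤ 8 / b * (1 / 3) := by
      have : 2 * (1001 / 1000 / b) ≤ 8 / b * (1 / 3) := by
        have e : 8 / b * (1 / 3) - 2 * (1001 / 1000 / b) = (8 / 3 - 2002 / 1000) / b := by ring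
        have : 0 ≤ (8 / 3 - 2002 / 1000) / b := div_nonneg (by norm_num) hb.le
        linarith
      linarith
    refine (mul_le_mul y3 e1 e0 (by positivity)).trans ?_
    linarith
  have e3 : 2 * ((1 + al) / b) * (v * ((1 + al) / b * η + lam / (s ^ 2 * n) +
      (|rq b y al| + 1) * (1 + η) * st)) = v * (2 * ((1 + al) / b) * ((1 + al) / b * η +
      lam / (s ^ 2 * n) + (|rq b y al| + 1) * (1 + η) * st)) := by ring
  rw [e3]
  calc v * (2 * ((1 + al) / b) * ((1 + al) / b * η +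
      lam / (s ^ 2 * n) + (|rq b y al| + 1) * (1 + η) * st)) ≤ V * 1 :=
        mul_le_mul hv e2 (by positivity) hV.le
    _ = V := mul_one V

/-- the constant -/
lemma const_le : 8 / 3 * (101 / 100 / b ^ 2 + 249) ≤ (n : ℝ) ^ (q / 4) := by
  obtain ⟨f1, f2, f3, f4, f5, f6, f7, f8, f9, f10, f11, f12, f13, f14⟩ := h.facts
  have hn := h.env.n0
  have hb := h.b0
  have c6 := log_c 6 (by norm_num)
  have c7 := log_c 1400 (by norm_num)
  have x1 : 6 / b ^ 2 ≤ (n : ℝ) ^ (q / 4) := by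
    refine le_of_log (by positivity) (by positivity) ?_
    simp (disch := positivity) only [Real.log_div, Real.log_rpow, Real.log_pow]
    push_cast
    linarith
  have x2 : 1400 ≤ (n : ℝ) ^ (q / 4) := by
    refine le_of_log (by positivity) (by positivity) ?_
    simp (disch := positivity) only [Real.log_rpow]
    linarith
  have e : 8 / 3 * (101 / 100 / b ^ 2 + 249) = (808 / 300 / 6) * (6 / b ^ 2) + 664 := by
    field_simp
    ring
  rw [e]
  nlinarith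

end comp

end Vale.Agent.P146.H442
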