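import Vale.Agent.P146.H442.QKey
import Vale.Agent.P146.H442.Reg2Num

/-!
# P146: second regime, the inequality at one point of the window

`q_asm`: the pure assembly; `q_pt`: at one parameter point the mean square of the weighted
magnetisations is at most `n^(q/4) V / T`.
-/

open MeasureTheory ProbabilityTheory Filter Set

namespace Vale.Agent.P146.H442

open Vale.Agent.P157.Lv hiding Dep
open Vale.Agent.P146.H425 Vale.Agent.P146.H646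
open Vale.Agent.P146.H196 Vale.Agent.P146.H246 Vale.Agent.P146.H347 Vale.Agent.P146.H816
  Vale.Agent.P146.H119 Vale.Agent.P146.H475 Vale.Agent.P146.H418
open Vale.Agent.P146.H325 hiding cb cf
open Vale.Agent.P146.H281.U Vale.Agent.P146.H9.U Vale.Agent.P146.H698.Br
  Vale.Agent.P146.H320 Vale.Agent.P146.H585.U Vale.Agent.P146.H347.U
open Vale.Agent.P146.H698 hiding ShU
open Vale.Agent.P146.H412.G (eG cG CCg Qg sR)
open Vale.Agent.P146.H463.Ap (muL enL ApK gnL apU_ev alL)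
open Vale.Agent.P146.H615 (Uq Uq_pos NW rq rq_eq)
open Vale.Agent.P146.H529 (cc)
open Vale.Agent.P146.H118 (pvN)
open Vale.Agent.P146.H281.C3 (NLc)
open Vale.Agent.P146.H470 (le_of_log log_c)

set_option linter.unusedSectionVars false
set_option linter.unusedVariables false

variable {a0 b₁ q A b : ℝ} {n : ℕ} {y V al s lam η T : ℝ}

/-- the hidden sites -/
lemma hid_le (h : NW a0 b₁ q A b n y V al s lam η) (hT : (n : ℝ) ^ (30 * q) * y ^ 2 / 2 ≤ T)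
    (hT1 : T ≤ 1) {m : ℝ} (hm : (n : ℝ) ^ (1 - 110 * q) * y ^ 2 / 2 ≤ m) :
    6 * (b ^ 2 * (1 - T) * (16 * (1 + η) ^ 2 * Uq q n y T / m)) ≤ V := by
  obtain ⟨hT0, t1⟩ := q_logT h hT
  obtain ⟨k1, k2, k3, k4, k5, k6, k7, k8⟩ := h.bd
  have hn := h.env.n0
  have hy := h.env.y0
  have hV := h.env.V0
  have hη := h.kw.η0
  have hU0 := Uq_pos (q := q) hn hy hT0
  have hm0 : 0 < m := lt_of_lt_of_le (by positivity) hm
  have c1 : Real.log (97 : ℝ) ≤ 1000000 := by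
    have := log_c 97 (by norm_num)
    linarith
  have x1 := z_hid h hT (c := 97) (by norm_num) c1 (k := 2) (by norm_num) hm
  have x2 : V * T / 8 ≤ V := by nlinarith
  have h4 : (1 + η) ^ 2 ≤ 101 / 100 := by nlinarith
  have e : 6 * (b ^ 2 * (1 - T) * (16 * (1 + η) ^ 2 * Uq q n y T / m)) =
      96 * (1 + η) ^ 2 * (1 - T) * (b ^ 2 * (Uq q n y T / m)) := by ring
  have e1 : 96 * (1 + η) ^ 2 * (1 - T) ≤ 97 := by
    have : 96 * (1 + η) ^ 2 * (1 - T) ≤ 96 * (101 / 100) * 1 :=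
      mul_le_mul (by linarith) (by linarith) (by linarith) (by norm_num)
    linarith
  have e2 : 0 ≤ b ^ 2 * (Uq q n y T / m) := by positivity
  rw [e]
  have e3 := mul_le_mul_of_nonneg_right e1 e2
  linarith

/-- the revealed fields -/
lemma k1_le {u g : ℝ} (h : NW a0 b₁ q A b n y V al s lam η) (hu0 : 0 ≤ u) (hu1 : u ≤ 1)
    (hg0 : 0 ≤ g) (hg1 : g ≤ 2 * (n : ℝ) ^ (-(80 * q))) :
    g ≤ 1 / 2 ∧ 0 ≤ u * (V - s ^ 2) ∧ u * (V - s ^ 2) ≤ V ∧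
      ((1 + al) / b) ^ 2 * (u * (V - s ^ 2)) ≤ 101 / 100 / b ^ 2 * V ∧
      0 ≤ (1 + η) ^ 2 * (u * (V - s ^ 2) + g * s ^ 2) ∧
      (1 + η) ^ 2 * (u * (V - s ^ 2) + g * s ^ 2) ≤ 101 / 100 * V ∧
      240 * ((1 + η) ^ 2 * (u * (V - s ^ 2) + g * s ^ 2)) ≤ 243 * V := by
  obtain ⟨k1, k2, k3, k4, k5, k6, k7, k8⟩ := h.bd
  obtain ⟨d0, d1⟩ := dl_bd h
  have hV := h.env.V0
  have hb := h.b0
  have hg1' : g ≤ 1 / 2 := by linarith
  have hvp0 : 0 ≤ V - s ^ 2 := by linarith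
  have hw := wF_le h hu0 hu1 hg0 (by linarith)
  have hv0 : 0 ≤ u * (V - s ^ 2) := mul_nonneg hu0 hvp0
  have hv1 : u * (V - s ^ 2) ≤ V := by
    have := mul_le_of_le_one_left hvp0 hu1
    have := sq_nonneg s
    linarith
  refine ⟨hg1', hv0, hv1, ?_, hw.1, hw.2, by linarith [hw.2]⟩
  have e1 : ((1 + al) / b) ^ 2 ≤ 101 / 100 / b ^ 2 := by
    rw [div_pow]
    refine div_le_div_of_nonneg_right ?_ (sq_nonneg b)
    have := abs_le.1 h.al_small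
    nlinarith
  exact mul_le_mul e1 hv1 hv0 (by positivity)

/-- the algebra of the assembly -/
lemma q_ring {n Sc b kp t F K1 K2 K3 h1 P a1 a2 a3 sF X f : ℝ}
    (key : (n / Sc - (b * kp) ^ 2 * t) * F ≤ K1 + K2 + K3 + 6 * (b ^ 2 * t * (h1 + 2 * P)) +
      2 * kp * (b ^ 2 * t * ((a1 + a2 + a3) * sF + X) + f)) :
    (n / Sc - kp ^ 2 * (b ^ 2 * t)) * F ≤ K1 + K2 + K3 + 6 * (b ^ 2 * t * h1) +
      6 * (b ^ 2 * t * (2 * P)) + 2 * kp * (b ^ 2 * t * X) + 2 * kp * f +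
      2 * kp * (b ^ 2 * t * (a1 + a2 + a3)) * sF := by
  have e0 : (n / Sc - kp ^ 2 * (b ^ 2 * t)) * F = (n / Sc - (b * kp) ^ 2 * t) * F := by ring
  rw [e0]
  refine key.trans (le_of_eq ?_)
  ring

/-- **The pure assembly.** -/
theorem q_asm {u g : ℝ} (h : NW a0 b₁ q A b n y V al s lam η) (hal : 6 * al ≤ T)
    (hs2 : s ^ 2 = (n : ℝ) ^ (-(80 * q)) * V)
    (hT : (n : ℝ) ^ (30 * q) * y ^ 2 / 2 ≤ T) (hT1 : T ≤ 1)
    (hu0 : 0 ≤ u) (hu1 : u ≤ 1) (hg0 : 0 ≤ g) (hg1 : g ≤ 2 * (n : ℝ) ^ (-(80 * q)))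
    {Sc mc F st X p : ℝ} (hSc0 : 0 < Sc) (hSc : Sc ≤ n)
    (hm : (n : ℝ) ^ (1 - 110 * q) * y ^ 2 / 2 ≤ mc) (hF : 0 ≤ F) (hst0 : 0 ≤ st)
    (hst : st ≤ (n : ℝ) ^ (-(10 : ℝ))) (hX0 : 0 ≤ X)
    (hX : X ≤ 26 * (Uq q n y T / ((n : ℝ) ^ (-(160 * q)) * V * n)))
    (hp : p ≤ (n : ℝ) ^ (-(20 : ℝ)))
    (key : (n / Sc - (b * ((1 + al) / b)) ^ 2 * (1 - T)) * F ≤
      ((1 + al) / b) ^ 2 * (u * (V - s ^ 2)) +
        240 * ((1 + η) ^ 2 * (u * (V - s ^ 2) + g * s ^ 2)) +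
      NLc b (1 - T) ((1 + η) ^ 2 * (u * (V - s ^ 2) + g * s ^ 2)) η (Uq q n y T)
        (Uq q n y T ^ 2) (Uq q n y T ^ 4) +
      6 * (b ^ 2 * (1 - T) * (16 * (1 + η) ^ 2 * Uq q n y T / mc +
        2 * pvN n η (rq b y al) (lam / (s ^ 2 * n)) (g * s ^ 2 / ((1 - g) * s ^ 2 * s ^ 2))
          (Uq q n y T) (Uq q n y T) st p)) +
      2 * ((1 + al) / b) * (b ^ 2 * (1 - T) * ((√(8 * (1 + η) ^ 2 * Uq q n y T / mc) +
        lam / (s ^ 2 * n) * √(Uq q n y T) + (|rq b y al| + 1) * (1 + η) * √st) * √F +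
        √X * √(2 * Uq q n y T ^ 2 + 2 * st)) +
      (u * (V - s ^ 2)) * ((1 + al) / b * η + lam / (s ^ 2 * n) +
          (|rq b y al| + 1) * (1 + η) * st))) :
    F ≤ (n : ℝ) ^ (q / 4) * (V / T) := by
  obtain ⟨hg1', hv0, hv1, r1, hw0, hw1, r2⟩ := k1_le h hu0 hu1 hg0 hg1
  have hr := rho_bd h hs2 hg0 hg1
  have hU0 := Uq_pos (q := q) h.env.n0 h.env.y0 (q_logT h hT).1
  exact q_real (q_logT h hT).1 hF (mass_le h hT hT1 hal hSc0 hSc) h.env.V0.le (q_ring key)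
    r1 r2 (NL_le h hT hT1 hw0 hw1 (cc := Uq q n y T ^ 2) (m4 := Uq q n y T ^ 4) le_rfl
      (pow_nonneg hU0.le 2) (pow_nonneg hU0.le 4) le_rfl) (hid_le h hT hT1 hm)
    (pv_le h hT hT1 hr.1 hr.2 hst0 hst hp) (X_le h hT hT1 hX0 hX hst)
    (df_le h hv0 hv1 hst0 hst) (dd_le h hT hT1 hm hst0 hst) (const_le h)

end Vale.Agent.P146.H442
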