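import Vale.Agent.P146.H118.Reg2V
import Vale.Agent.P146.H463.ApU
import Vale.Agent.P146.H442.CanU

/-!
# P146: the inequality of the second regime in the letters of one law

`q_key` : `H118.reg2_c` at the canonical level system of one law, with the numbers as letters.
-/

open MeasureTheory ProbabilityTheory Filter Set

namespace Vale.Agent.P146.H442

open Vale.Agent.P157.Lv hiding Dep
open Vale.Agent.P146.H425 Vale.Agent.P146.H646
open Vale.Agent.P146.H196 Vale.Agent.P146.H246 Vale.Agent.P146.H347 Vale.Agent.P146.H816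
  Vale.Agent.P146.H119 Vale.Agent.P146.H475 Vale.Agent.P146.H418
open Vale.Agent.P146.H325 hiding cb cf
open Vale.Agent.P146.H281.U Vale.Agent.P146.H9.U Vale.Agent.P146.H698.Br
  Vale.Agent.P146.H320 Vale.Agent.P146.H585.U Vale.Agent.P146.H347.U
open Vale.Agent.P146.H698 hiding ShU
open Vale.Agent.P146.H412.G (eG cG CCg Qg sR)
open Vale.Agent.P146.H463.Ap (muL enL ApK gnL apU_ev alL)
open Vale.Agent.P146.H615 (Uq Uq_pos NW rq rq_eq)
open Vale.Agent.P146.H529 (cc)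
open Vale.Agent.P146.H118 (pvN)
open Vale.Agent.P146.H281.C3 (NLc)

set_option linter.unusedSectionVars false

section num

variable {L : Law} {LB LF : Type} [Fintype LB] [DecidableEq LB] [Fintype LF]
  [DecidableEq LF] {t u g : ℝ} {cB : LB → ℝ} {cF : LF → ℝ}
  {κ : LF → Bool} {BL : Finset LB} {FL : Finset LF}

/-- the pair numbers from the second moment -/
lemma R2_le (hA : Adm L) {K : Finset (Co L.n LB LF)} {S : Finset (Fin L.n)} {U : ℝ}
    (h : eG (muL L) (enL L cB cF κ) L.x (CCg (muL L) (enL L cB cF κ) L.x Prod.snd K S) ≤ U ^ 2) :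
    R2U L.n L.nuL L.b cB cF (fun l θ => αb L.η (κ l) (θ ())) L.x K S ≤ (L.n * U) ^ 2 := by
  rw [R2U_L hA.lam0 hA.η0 hA.n0, mul_pow]
  exact mul_le_mul_of_nonneg_left h (sq_nonneg _)

/-- the tail of the pair numbers -/
lemma ind_le (hA : Adm L) {K : Finset (Co L.n LB LF)} {S : Finset (Fin L.n)} {U p : ℝ}
    (h : eG (muL L) (enL L cB cF κ) L.x (H317.ind (U ^ 2)
      (CCg (muL L) (enL L cB cF κ) L.x Prod.snd K S)) ≤ p) :
    exU L.n L.nuL L.b cB cF (fun l θ => αb L.η (κ l) (θ ())) L.x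
      (H317.ind ((L.n * U) ^ 2) (fun z => ∑ j ∈ S, ∑ l ∈ S,
      cxU L.n L.nuL L.b cB cF (fun l θ => αb L.η (κ l) (θ ())) L.x K
        (avU L.n L.nuL L.b cB cF (fun l θ => αb L.η (κ l) (θ ()))
          (fun w => sp w.2 j * sp w.2 l)) z ^ 2)) ≤ p := by
  have hn : (0 : ℝ) < L.n := by exact_mod_cast hA.n0
  refine le_trans (le_of_eq ?_) h
  congr 1
  funext z
  unfold H317.ind
  refine if_congr ?_ rfl rfl
  have e : CCg (muL L) (enL L cB cF κ) L.x Prod.snd K S z = (∑ j ∈ S, ∑ l ∈ S,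
      cxU L.n L.nuL L.b cB cF (fun l θ => αb L.η (κ l) (θ ())) L.x K
        (avU L.n L.nuL L.b cB cF (fun l θ => αb L.η (κ l) (θ ()))
          (fun w => sp w.2 j * sp w.2 l)) z ^ 2) / (L.n : ℝ) ^ 2 := rfl
  rw [e, lt_div_iff₀ (by positivity), mul_pow, mul_comm ((L.n : ℝ) ^ 2)]

/-- the magnetisations from the second moment -/
lemma Q_le (hA : Adm L) {K : Finset (Co L.n LB LF)} {S : Finset (Fin L.n)} {U : ℝ} (hU : 0 ≤ U)
    (h : eG (muL L) (enL L cB cF κ) L.x (CCg (muL L) (enL L cB cF κ) L.x Prod.snd K S) ≤ U ^ 2) :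
    QU1 L.n L.nuL L.b cB cF (fun l θ => αb L.η (κ l) (θ ())) L.x
      (fun θ => al L.η (θ ())) S K ≤ L.n * ((1 + L.η) ^ 2 * U) := by
  have hn : (0 : ℝ) < L.n := by exact_mod_cast hA.n0
  have hM := H463.Ap.gmL hA cB cF κ
  have hw := H347.wt hM 1 L.x
  have hh : H615.Bd fun w : (Unit → ℝ) × Xs L.n => al L.η (w.1 ()) :=
    ⟨(measurable_al L.η).comp ((measurable_pi_apply ()).comp measurable_fst), 1 + L.η,
      by linarith [hA.η0], fun w => abs_al_le' hA.η0 _⟩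
  have hC : ∀ w : (Unit → ℝ) × Xs L.n, |al L.η (w.1 ())| ≤ 1 + L.η := fun w =>
    abs_al_le' hA.η0 _
  have h1 := H412.G.mom_Qg (x := L.x) hM measurable_snd hA.n0 hh hC K S 1
  have bQ : BM (Qg (muL L) (enL L cB cF κ) L.x Prod.snd (fun w => al L.η (w.1 ())) K S) := by
    have e : Qg (muL L) (enL L cB cF κ) L.x Prod.snd (fun w => al L.η (w.1 ())) K S =
        fun z => (1 / (L.n : ℝ)) * ∑ j ∈ S, cG (muL L) (enL L cB cF κ) L.x K
          (fun w => al L.η (w.1 ()) * sR Prod.snd j w) z ^ 2 := by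
      funext z
      unfold Qg
      ring
    rw [e]
    exact (BM.const _).mul (BM.sum _ fun j _ => (hw.bm_cx K (H347.bm hM 1
      (hh.mul (H347.U.bm_spU j)))).sq)
  have e1 : QU1 L.n L.nuL L.b cB cF (fun l θ => αb L.η (κ l) (θ ())) L.x
      (fun θ => al L.η (θ ())) S K = L.n * eG (muL L) (enL L cB cF κ) L.x
        (Qg (muL L) (enL L cB cF κ) L.x Prod.snd (fun w => al L.η (w.1 ())) K S) := by
    have e2 : Qg (muL L) (enL L cB cF κ) L.x Prod.snd (fun w => al L.η (w.1 ())) K S =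
        fun z => (1 / (L.n : ℝ)) * ∑ j ∈ S, cG (muL L) (enL L cB cF κ) L.x K
          (fun w => al L.η (w.1 ()) * sR Prod.snd j w) z ^ 2 := by
      funext z
      unfold Qg
      ring
    rw [e2]
    unfold eG
    rw [H615.ex_cmul, ← mul_assoc, mul_one_div_cancel hn.ne', one_mul]
    rfl
  rw [e1]
  refine mul_le_mul_of_nonneg_left ?_ hn.le
  have h2 := H615.ex_le_sqrt hw bQ
  refine h2.trans ?_
  refine Real.sqrt_le_iff.2 ⟨by positivity, ?_⟩
  have e3 : (fun z => Qg (muL L) (enL L cB cF κ) L.x Prod.snd (fun w => al L.η (w.1 ())) K S z ^ 2)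
      = fun z => Qg (muL L) (enL L cB cF κ) L.x Prod.snd (fun w => al L.η (w.1 ())) K S z ^
        (2 * 1) := rfl
  rw [e3]
  refine h1.trans ?_
  simp only [pow_one, mul_one]
  have e4 : ((1 + L.η) ^ 2 * U) ^ 2 = (1 + L.η) ^ 4 * U ^ 2 := by ring
  rw [e4]
  exact mul_le_mul_of_nonneg_left h (by positivity)

/-- the four point number over a smaller set -/
lemma q4_le (hA : Adm L) {K : Finset (Co L.n LB LF)} {S S' : Finset (Fin L.n)} (hS : S ⊆ S')
    {p : ℝ} (h : eG (muL L) (enL L cB cF κ) L.x (H463.Q4g (muL L) (enL L cB cF κ) L.x K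
      (sR Prod.snd) S') ≤ p) :
    q4U L.n L.nuL L.b cB cF (fun l θ => αb L.η (κ l) (θ ())) L.x K S ≤ p := by
  have hM := H463.Ap.gmL hA cB cF κ
  have hw := H347.wt hM 1 L.x
  have bt : ∀ j : Fin L.n, H615.Bd fun w : (Unit → ℝ) × Xs L.n => sR Prod.snd j w :=
    fun j => H347.U.bm_spU j
  have bF : ∀ S : Finset (Fin L.n), BM (H463.Q4g (muL L) (enL L cB cF κ) L.x K
      (sR Prod.snd) S) := fun S =>
    BM.sum _ fun p _ => BM.sum _ fun q _ => (hw.bm_cx K (H347.bm hM 1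
      (((bt p.1).mul (bt p.2)).mul ((bt q.1).mul (bt q.2))))).sq
  refine le_trans ?_ h
  show ex (g1 _) (Zxm (muL L) 1 (enL L cB cF κ) L.x) (H463.Q4g (muL L) (enL L cB cF κ) L.x K
      (sR Prod.snd) S) ≤ ex (g1 _) (Zxm (muL L) 1 (enL L cB cF κ) L.x)
        (H463.Q4g (muL L) (enL L cB cF κ) L.x K (sR Prod.snd) S')
  refine hw.ex_mono (bF S) (bF S') fun z => ?_
  unfold H463.Q4g H463.F2
  refine le_trans (Finset.sum_le_sum fun p _ => Finset.sum_le_sum_of_subset_of_nonneg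
    (Finset.product_subset_product hS hS) fun _ _ _ => sq_nonneg _) ?_
  exact Finset.sum_le_sum_of_subset_of_nonneg (Finset.product_subset_product hS hS)
    fun _ _ _ => Finset.sum_nonneg fun _ _ => sq_nonneg _

end num

section key

variable {L : Law}

/-- the stuck probability is not negative -/
lemma stk_nonneg' (hA : Adm L) {LB LF : Type} [Fintype LB] [DecidableEq LB] [Fintype LF]
    [DecidableEq LF] (cB : LB → ℝ) (cF : LF → ℝ) (κ : LF → Bool) :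
    0 ≤ stk L.n L.nuL L.b cB cF (fun l (θ : Unit → ℝ) => αb L.η (κ l) (θ ())) L.η L.x () := by
  have hM := H463.Ap.gmL hA cB cF κ
  have hw' := H347.wt hM 1 L.x
  unfold stk
  have h1 : Bm fun w : (Unit → ℝ) × Xs L.n => 1 - ins L.η (w.1 ()) :=
    (Bm.const 1).sub (bm_insU L.η ())
  refine H615.ex_nonneg hw' fun z => ?_
  refine (H615.av_gm hM 1).nonneg h1 (fun ω => ?_) z
  have h3 := ins_le L.η (ω.1 ())
  show 0 ≤ 1 - ins L.η (ω.1 ())
  linarith

/-- **The inequality of the second regime at the canonical levels of one law.** -/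
theorem q_key {t u g : ℝ} (hA : Adm L) (hη1 : L.η ≤ 1 / 2) (hs : 0 < L.s) (hx0 : 0 ≤ L.x)
    (hx : L.x < 1) (hvp : 0 < L.vp) (ht0 : 0 ≤ t) (ht1 : t ≤ 1) (hu0 : 0 ≤ u) (hu1 : u ≤ 1)
    (hg0 : 0 ≤ g) (hg1 : g < 1) {r0 kp : ℝ} (hkp : kp = 1 - (1 - L.x) * r0)
    (hc : L.c = L.s ^ 2 * L.n * kp) (hk : 0 < kp) (hk3 : kp ≤ 3)
    {S : Finset (Fin L.n)} (hSn : S.Nonempty) {i0 : Fin L.n} (hi : i0 ∉ S)
    (hL : L.x ^ 2 * (L.b ^ 2 * t + (1 + L.η) ^ 2 * (u * L.vp + g * L.s ^ 2)) ≤ 1 / 4)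
    {U X p : ℝ} (hU : 0 < U)
    (hap : ∀ S1 S' : Finset (Fin L.n), eG (muL L) (enL L (cbU t) (L.cfg u g)
      (Prod.fst : Bool × Bool → Bool)) L.x (CCg (muL L) (enL L (cbU t) (L.cfg u g)
        (Prod.fst : Bool × Bool → Bool)) L.x Prod.snd (Kset S1 {true} (FLU Bool)) S') ≤ U ^ 2)
    (hq4 : ∀ S' : Finset (Fin L.n), eG (muL L) (enL L (cbU t) (L.cfg u g)
      (Prod.fst : Bool × Bool → Bool)) L.x (H463.Q4g (muL L) (enL L (cbU t) (L.cfg u g)
        (Prod.fst : Bool × Bool → Bool)) L.x (Kset S' {true} (FLU Bool)) (sR Prod.snd) S') ≤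
      (L.n : ℝ) ^ 4 * U ^ 4)
    (hX : rxT L.n L.nuL L.b (aL L) L.x (cbU t) (L.cfg u g) (fun l => aL L l.1) true S
      (Kset S {true} (FLU Bool)) ≤ (L.n : ℝ) ^ 2 * X)
    (hp : eG (muL L) (enL L (cbU t) (L.cfg u g) (Prod.fst : Bool × Bool → Bool)) L.x
      (H317.ind (U ^ 2) (CCg (muL L) (enL L (cbU t) (L.cfg u g)
        (Prod.fst : Bool × Bool → Bool)) L.x Prod.snd (Kset S {true} (FLU Bool)) S)) ≤ p) :
    (L.n / S.card - (L.b * kp) ^ 2 * t) * (L.fag S t u g / L.n) ≤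
      kp ^ 2 * (u * L.vp) + 240 * ((1 + L.η) ^ 2 * (u * L.vp + g * L.s ^ 2)) +
      NLc L.b t ((1 + L.η) ^ 2 * (u * L.vp + g * L.s ^ 2)) L.η U (U ^ 2) (U ^ 4) +
      6 * (L.b ^ 2 * t * (16 * (1 + L.η) ^ 2 * U / (Sᶜ.card : ℝ) +
        2 * pvN L.n L.η r0 (L.lam / (L.s ^ 2 * L.n)) (g * L.s ^ 2 / ((1 - g) * L.s ^ 2 * L.s ^ 2))
          U U (stk L.n L.nuL L.b (cbU t) (L.cfg u g)
            (fun (l : Bool × Bool) (θ : Unit → ℝ) => αb L.η l.1 (θ ())) L.η L.x ()) p)) +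
      2 * kp * (L.b ^ 2 * t * ((√(8 * (1 + L.η) ^ 2 * U / (Sᶜ.card : ℝ)) +
        L.lam / (L.s ^ 2 * L.n) * √U + (|r0| + 1) * (1 + L.η) *
          √(stk L.n L.nuL L.b (cbU t) (L.cfg u g)
            (fun (l : Bool × Bool) (θ : Unit → ℝ) => αb L.η l.1 (θ ())) L.η L.x ())) *
              √(L.fag S t u g / L.n) +
        √X * √(2 * U ^ 2 + 2 * stk L.n L.nuL L.b (cbU t) (L.cfg u g)
            (fun (l : Bool × Bool) (θ : Unit → ℝ) => αb L.η l.1 (θ ())) L.η L.x ())) +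
      (u * L.vp) * (kp * L.η + L.lam / (L.s ^ 2 * L.n) +
          (|r0| + 1) * (1 + L.η) * stk L.n L.nuL L.b (cbU t) (L.cfg u g)
            (fun (l : Bool × Bool) (θ : Unit → ℝ) => αb L.η l.1 (θ ())) L.η L.x ())) := by
  have hn : (0 : ℝ) < L.n := by exact_mod_cast hA.n0
  have hs20 : 0 < L.s ^ 2 := by positivity
  have hsh := can_sh L (t := t) (u := u) (g := g) hvp.le ht0 ht1 hu0 hu1 hg0 hg1.le
  have hsumL : ∑ l ∈ Lmd (Prod.fst : Bool × Bool → Bool), L.cfg u g l ^ 2 = L.s ^ 2 := sum_Lm hsh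
  have hsumF : ∑ l ∈ (Lmd (Prod.fst : Bool × Bool → Bool)).filter (· ∈ FLU Bool),
      L.cfg u g l ^ 2 = g * L.s ^ 2 := sum_LmF hsh
  have hsumH : ∑ l ∈ (Lmd (Prod.fst : Bool × Bool → Bool)).filter (· ∉ FLU Bool),
      L.cfg u g l ^ 2 = (1 - g) * L.s ^ 2 := by
    have e := Finset.sum_filter_add_sum_filter_not (Lmd (Prod.fst : Bool × Bool → Bool))
      (· ∈ FLU Bool) fun l => L.cfg u g l ^ 2
    rw [hsumL, hsumF] at e
    linarith
  have key := H118.reg2_c (lam := fun _ : Unit => L.lam) (c := fun _ => L.c)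
    (fun _ => hA.lam0) L.b (cbU t) (L.cfg u g)
    (a := fun (l : Bool × Bool) (θ : Unit → ℝ) => αb L.η l.1 (θ ())) (η := L.η)
    (amU_L L hA.η0 (Prod.fst : Bool × Bool → Bool)) hη1 (g0 := ())
    (mods_L L (Prod.fst : Bool × Bool → Bool)) hx0 hx hsumL hs20
    (r0 := r0) (kp := kp) hkp hc hk hk3 hSn hi {true} (FLU Bool)
    (pl_L L (Prod.fst : Bool × Bool → Bool)) (t := t) (v := u * L.vp)
    (wF := (1 + L.η) ^ 2 * (u * L.vp + g * L.s ^ 2)) hsh.shB.symm (sum_FP hsh).symm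
    (congrArg (fun r => (1 + L.η) ^ 2 * r) (sum_FLr hsh).symm) hL hsumF hsumH
    (mul_pos (by linarith) hs20)
    (q := L.fag S t u g / L.n) (cc := U) (cS := U) (cI := U ^ 2) (m4 := U ^ 4)
    (X := X) (δ := U) (B := U) (p := p) hU hU.le
    ((QsU_L (L := L) hA.lam0 hA.η0 hvp.le hsh ht0 ht1 hu0 hu1 hg0 hg1.le S).trans
      (mul_div_cancel₀ _ hn.ne').symm) hU.le (R2_le hA (hap _ _)) hU.le
    (R2_le hA (hap _ _)) ((R2_le hA (hap _ _)).trans (le_of_eq (mul_pow _ _ _)))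
    (q4_le hA (Finset.subset_insert _ _) (hq4 _))
    ((le_of_eq (X2U_L (L := L) hA.lam0 hA.η0 hvp hs hsh S)).trans hX) (ind_le hA hp)
  exact key

end key

end Vale.Agent.P146.H442
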