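import Vale.Agent.P146.H442.QAsm

/-!
# P146: second regime, the inequality at one point of the window

`q_pt`: at one parameter point the mean square of the weighted magnetisations is at most
`n^(q/4) V / T`.
-/

open MeasureTheory ProbabilityTheory Filter Set

namespace Vale.Agent.P146.H442

open Vale.Agent.P157.Lv hiding Dep
open Vale.Agent.P146.H425 Vale.Agent.P146.H646
open Vale.Agent.P146.H196 Vale.Agent.P146.H246 Vale.Agent.P146.H347 Vale.Agent.P146.H816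
  Vale.Agent.P146.H119 Vale.Agent.P146.H475 Vale.Agent.P146.H418
open Vale.Agent.P146.H325 hiding cb cf
open Vale.Agent.P146.H281.U Vale.Agent.P146.H9.U Vale.Agent.P146.H698.Br
  Vale.Agent.P146.H320 Vale.Agent.P146.H585.U Vale.Agent.P146.H347.U
open Vale.Agent.P146.H698 hiding ShU
open Vale.Agent.P146.H412.G (eG cG CCg Qg sR)
open Vale.Agent.P146.H463.Ap (muL enL ApK gnL apU_ev alL)
open Vale.Agent.P146.H615 (Uq Uq_pos NW rq rq_eq)
open Vale.Agent.P146.H529 (cc)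
open Vale.Agent.P146.H118 (pvN)
open Vale.Agent.P146.H281.C3 (NLc)
open Vale.Agent.P146.H470 (le_of_log log_c)

set_option linter.unusedSectionVars false
set_option linter.unusedVariables false

variable {a0 b₁ q A b : ℝ} {n : ℕ} {y V al s lam η T : ℝ}

/-- the visible and the hidden sites -/
lemma sn_facts {m : ℕ} (hm1 : 1 ≤ m) (hm2 : m < n) :
    (Sn n m).Nonempty ∧ (0 : ℝ) < (Sn n m).card ∧ ((Sn n m).card : ℝ) ≤ n ∧
      ((Sn n m)ᶜ.card : ℝ) = m ∧ ∃ i : Fin n, i ∉ Sn n m := by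
  have hcv := H615.card_vis hm2.le
  have hch : ((Sn n m)ᶜ.card : ℝ) = m := by
    have := H615.card_hidden hm2.le
    rw [Finset.compl_eq_univ_sdiff, this]
  have hmn : (m : ℝ) < n := by exact_mod_cast hm2
  have hm0 : (0 : ℝ) < m := by exact_mod_cast hm1
  have hcpos : (0 : ℝ) < (Sn n m).card := by
    rw [hcv]
    linarith
  refine ⟨?_, hcpos, ?_, hch, ⟨n - m, by omega⟩, ?_⟩
  · rw [← Finset.card_pos]
    exact_mod_cast hcpos
  · rw [hcv]
    linarith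
  · simp only [Sn, Finset.mem_filter, Finset.mem_univ, true_and]
    omega

/-- the scalar facts at one point -/
lemma pt_facts (h : NW a0 b₁ q A b n y V al s lam η) (hb1 : 1 ≤ b) {u g : ℝ}
    (hT0 : 0 ≤ T) (hu0 : 0 ≤ u) (hu1 : u ≤ 1) (hg0 : 0 ≤ g)
    (hg1 : g ≤ 2 * (n : ℝ) ^ (-(80 * q))) :
    η ≤ 1 / 2 ∧ y < 1 ∧ 0 < V - s ^ 2 ∧ g < 1 ∧ (1 + al) / b = 1 - (1 - y) * rq b y al ∧
      cc n b s al = s ^ 2 * n * ((1 + al) / b) ∧ 0 < (1 + al) / b ∧ (1 + al) / b ≤ 3 ∧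
      y ^ 2 * (b ^ 2 * (1 - T) + (1 + η) ^ 2 * (u * (V - s ^ 2) + g * s ^ 2)) ≤ 1 / 4 := by
  obtain ⟨k1, k2, k3, k4, k5, k6, k7, k8⟩ := h.bd
  obtain ⟨d0, d1⟩ := dl_bd h
  obtain ⟨p1, p2, p3⟩ := kp_bd h
  obtain ⟨hg1', hv0, hv1, r1, hw0, hw1, r2⟩ := k1_le h hu0 hu1 hg0 hg1
  have hy := h.env.y0
  have hV := h.env.V0
  have hy1 : y < 1 := by linarith
  refine ⟨by linarith, hy1, by linarith, by linarith, (rq_eq (b := b) (al := al) hy1).symm, ?_,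
    p1, ?_, ?_⟩
  · unfold cc
    ring
  · refine p2.trans ?_
    rw [div_le_iff₀ h.b0]
    linarith
  · have e1 : y ^ 2 * (b ^ 2 * (1 - T)) ≤ 1 / 1000 := by
      rw [← mul_assoc]
      have e3 : 0 ≤ y ^ 2 * b ^ 2 := by positivity
      have e4 : y ^ 2 * b ^ 2 * (1 - T) ≤ y ^ 2 * b ^ 2 * 1 :=
        mul_le_mul_of_nonneg_left (by linarith) e3
      linarith
    have e2 : y ^ 2 * ((1 + η) ^ 2 * (u * (V - s ^ 2) + g * s ^ 2)) ≤ 1 * (101 / 100 * V) :=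
      mul_le_mul (by nlinarith) hw1 hw0 zero_le_one
    rw [mul_add]
    linarith

/-- **The inequality at one point.** -/
theorem q_pt {u g : ℝ} (h : NW a0 b₁ q A b n y V al s lam η) (hb1 : 1 ≤ b)
    (hal : 6 * al ≤ T) (hs2 : s ^ 2 = (n : ℝ) ^ (-(80 * q)) * V)
    (hT : (n : ℝ) ^ (30 * q) * y ^ 2 / 2 ≤ T) (hT1 : T ≤ 1)
    (hu0 : 0 ≤ u) (hu1 : u ≤ 1) (hg0 : 0 ≤ g) (hg1 : g ≤ 2 * (n : ℝ) ^ (-(80 * q)))
    {m : ℕ} (hm : (n : ℝ) ^ (1 - 110 * q) * y ^ 2 / 2 ≤ m) (hm1 : 1 ≤ m) (hm2 : m < n)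
    (hst : stk n (lawOf n b y V al s lam η).nuL b (cbU (1 - T))
      ((lawOf n b y V al s lam η).cfg u g) (fun (l : Bool × Bool) (θ : Unit → ℝ) =>
        αb η l.1 (θ ())) η y () ≤ (n : ℝ) ^ (-(20 : ℝ)))
    (hap : ∀ (S1 S : Finset (Fin n)), ApK q 20 (lawOf n b y V al s lam η) T
      (Prod.fst : Bool × Bool → Bool) (cbU (1 - T)) ((lawOf n b y V al s lam η).cfg u g)
      (Kset S1 {true} (FLU Bool)) S)
    (hq4 : ∀ S : Finset (Fin n), eG (muL (lawOf n b y V al s lam η))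
      (enL (lawOf n b y V al s lam η) (cbU (1 - T)) ((lawOf n b y V al s lam η).cfg u g)
        (Prod.fst : Bool × Bool → Bool)) y
        (H463.Q4g (muL (lawOf n b y V al s lam η)) (enL (lawOf n b y V al s lam η)
          (cbU (1 - T)) ((lawOf n b y V al s lam η).cfg u g) (Prod.fst : Bool × Bool → Bool)) y
          (Kset S {true} (FLU Bool)) (sR Prod.snd) S) ≤ (n : ℝ) ^ 4 * Uq q n y T ^ 4)
    (hX : rxT n (lawOf n b y V al s lam η).nuL b (aL (lawOf n b y V al s lam η)) y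
      (cbU (1 - T)) ((lawOf n b y V al s lam η).cfg u g)
      (fun l => aL (lawOf n b y V al s lam η) l.1) true (Sn n m)
        (Kset (Sn n m) {true} (FLU Bool)) ≤
      (n : ℝ) ^ 2 * (26 * (Uq q n y T / ((n : ℝ) ^ (-(160 * q)) * V * n)))) :
    (lawOf n b y V al s lam η).fag (Sn n m) (1 - T) u g ≤
      n * ((n : ℝ) ^ (q / 4) * (V / T)) := by
  obtain ⟨hT0, t1⟩ := q_logT h hT
  obtain ⟨c1, c2, c3, c4, c5, c6, c7, c8, c9⟩ := pt_facts h hb1 hT0.le hu0 hu1 hg0 hg1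
  obtain ⟨s1, s2, s3, s4, i, hi⟩ := sn_facts (n := n) hm1 hm2
  have hA : Adm (lawOf n b y V al s lam η) := h.adm.1
  have hn : (0 : ℝ) < n := h.env.n0
  have hy := h.env.y0
  have hV := h.env.V0
  have hU0 := Uq_pos (q := q) hn hy hT0
  have hX0 : 0 ≤ 26 * (Uq q n y T / ((n : ℝ) ^ (-(160 * q)) * V * n)) :=
    mul_nonneg (by norm_num) (div_nonneg hU0.le (mul_nonneg (mul_nonneg
      (Real.rpow_nonneg hn.le _) hV.le) hn.le))
  have key := q_key (L := lawOf n b y V al s lam η) (t := 1 - T) (u := u) (g := g) hA c1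
    h.kw.s0 hy.le c2 c3 (by linarith) (by linarith) hu0 hu1 hg0 c4 c5 c6 c7 c8 s1 hi c9
    (U := Uq q n y T) (X := 26 * (Uq q n y T / ((n : ℝ) ^ (-(160 * q)) * V * n)))
    (p := (n : ℝ) ^ (-(20 : ℝ))) hU0 (fun S1 S' => (hap S1 S').m1) hq4 hX
    (hap (Sn n m) (Sn n m)).tC
  have hst0 := stk_nonneg' hA (cbU (1 - T)) ((lawOf n b y V al s lam η).cfg u g)
    (Prod.fst : Bool × Bool → Bool)
  have hF0 : 0 ≤ (lawOf n b y V al s lam η).fag (Sn n m) (1 - T) u g / n := by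
    refine div_nonneg ?_ hn.le
    exact fag_nonneg (lawOf n b y V al s lam η) h.kw.l0 h.kw.η0.le _ _ _ _
  have hst10 := hst.trans (Real.rpow_le_rpow_of_exponent_le
    (by exact_mod_cast h.kw.n1.le : (1 : ℝ) ≤ n) (by norm_num : (-(20 : ℝ)) ≤ -(10 : ℝ)))
  have hfin := q_asm (Sc := ((Sn n m).card : ℝ)) (mc := ((Sn n m)ᶜ.card : ℝ))
    (F := (lawOf n b y V al s lam η).fag (Sn n m) (1 - T) u g / n) h hal hs2 hT hT1 hu0 hu1
    hg0 hg1 s2 s3 (by rw [s4]; exact hm) hF0 hst0 hst10 hX0 le_rfl le_rfl key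
  rw [div_le_iff₀ hn] at hfin
  linarith

end Vale.Agent.P146.H442
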