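import Vale.Agent.P146.H442.QPt
import Vale.Agent.P146.H122.UpB

/-!
# P146: second regime with a share of the modulated field revealed, the corner of the window

`q_at` (one parameter point) : for `T ≥ n^(30q) y² / 2` the mean square of the weighted
magnetisations at the shares `1 - T`, `u1`, `n^(-80q)` is at most `n^(q/4) V / T`;
`qrow_ev` : eventually on the window `KW`.
-/

open MeasureTheory ProbabilityTheory Filter Set

namespace Vale.Agent.P146.H442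

open Vale.Agent.P157.Lv hiding Dep
open Vale.Agent.P146.H425 Vale.Agent.P146.H646
open Vale.Agent.P146.H196 Vale.Agent.P146.H246 Vale.Agent.P146.H347 Vale.Agent.P146.H816
  Vale.Agent.P146.H119 Vale.Agent.P146.H475 Vale.Agent.P146.H418
open Vale.Agent.P146.H325 hiding cb cf
open Vale.Agent.P146.H281.U Vale.Agent.P146.H9.U Vale.Agent.P146.H698.Br
  Vale.Agent.P146.H320 Vale.Agent.P146.H585.U Vale.Agent.P146.H347.U
open Vale.Agent.P146.H698 hiding ShU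
open Vale.Agent.P146.H412.G (eG cG CCg Qg sR)
open Vale.Agent.P146.H463.Ap (muL enL ApK gnL apU_ev alL)
open Vale.Agent.P146.H615 (Uq Uq_pos NW rq rq_eq)
open Vale.Agent.P146.H529 (cc)
open Vale.Agent.P146.H470 (le_of_log log_c)

set_option linter.unusedSectionVars false
set_option linter.unusedVariables false

/-- the a priori numbers of the canonical level systems of one law -/
structure ApQ (q D : ℝ) (L : Law) : Prop where
  st : ∀ T, 0 < T → T ≤ 1 → ∀ u ∈ Icc (0 : ℝ) 1, ∀ g ∈ Icc (0 : ℝ) 1,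
    stk L.n L.nuL L.b (cbU (1 - T)) (L.cfg u g)
      (fun (l : Bool × Bool) (θ : Unit → ℝ) => αb L.η l.1 (θ ())) L.η L.x () ≤ (L.n : ℝ) ^ (-D)
  ap : ∀ T, 0 < T → T ≤ 1 → ∀ u ∈ Icc (0 : ℝ) 1, ∀ g ∈ Icc (0 : ℝ) 1,
    ∀ S1 S : Finset (Fin L.n), ApK q D L T (Prod.fst : Bool × Bool → Bool) (cbU (1 - T))
      (L.cfg u g) (Kset S1 {true} (FLU Bool)) S
  q4 : ∀ T, 0 < T → T ≤ 1 → ∀ u ∈ Icc (0 : ℝ) 1, ∀ g ∈ Icc (0 : ℝ) 1,
    ∀ S : Finset (Fin L.n), eG (muL L) (enL L (cbU (1 - T)) (L.cfg u g)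
      (Prod.fst : Bool × Bool → Bool)) L.x (H463.Q4g (muL L) (enL L (cbU (1 - T)) (L.cfg u g)
        (Prod.fst : Bool × Bool → Bool)) L.x (Kset S {true} (FLU Bool)) (sR Prod.snd) S) ≤
      (L.n : ℝ) ^ 4 * Uq q L.n L.x T ^ 4

/-- the canonical level systems from all level systems (the conclusion of `apU_ev`) -/
lemma apQ_of {q D : ℝ} {L : Law} (hA : Adm L)
    (h : ∀ (LB LF : Type) [Fintype LB] [DecidableEq LB] [Fintype LF] [DecidableEq LF]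
        (κ : LF → Bool) (cB : LB → ℝ) (cF : LF → ℝ) (BL : Finset LB), ∑ l, cB l ^ 2 = 1 →
        (∀ k, ∑ l with κ l = k, cF l ^ 2 = VFb L.vp L.s k) →
        stk L.n L.nuL L.b cB cF (fun l => alL L (κ l)) L.η L.x () ≤ (L.n : ℝ) ^ (-D) ∧
        ∀ T, 0 < T → T ≤ 1 → ∑ l ∈ BL, cB l ^ 2 = 1 - T → ∀ (FL : Finset LF)
          (S1 S : Finset (Fin L.n)), ApK q D L T κ cB cF (Kset S1 BL FL) S ∧
          eG (muL L) (enL L cB cF κ) L.x (H463.Q4g (muL L) (enL L cB cF κ) L.x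
            (Kset S BL FL) (sR Prod.snd) S) ≤ (L.n : ℝ) ^ 4 * Uq q L.n L.x T ^ 4) :
    ApQ q D L := by
  refine ⟨fun T hT hT1 u hu g hg => ?_, fun T hT hT1 u hu g hg S1 S => ?_,
    fun T hT hT1 u hu g hg S => ?_⟩
  · have hs := can_sh L (t := 1 - T) (u := u) (g := g) hA.vp0.le (by linarith) (by linarith)
      hu.1 hu.2 hg.1 hg.2
    exact (h Bool (Bool × Bool) Prod.fst (cbU (1 - T)) (L.cfg u g) {true} hs.totB hs.totF).1
  · have hs := can_sh L (t := 1 - T) (u := u) (g := g) hA.vp0.le (by linarith) (by linarith)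
      hu.1 hu.2 hg.1 hg.2
    exact ((h Bool (Bool × Bool) Prod.fst (cbU (1 - T)) (L.cfg u g) {true} hs.totB hs.totF).2
      T hT hT1 hs.shB (FLU Bool) S1 S).1
  · have hs := can_sh L (t := 1 - T) (u := u) (g := g) hA.vp0.le (by linarith) (by linarith)
      hu.1 hu.2 hg.1 hg.2
    exact ((h Bool (Bool × Bool) Prod.fst (cbU (1 - T)) (L.cfg u g) {true} hs.totB hs.totF).2
      T hT hT1 hs.shB (FLU Bool) S S).2

section pt

variable {a0 b₁ q A b : ℝ} {n : ℕ} {y V al s lam η T : ℝ}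

/-- the hidden sites -/
lemma m_facts (h : NW a0 b₁ q A b n y V al s lam η) :
    (n : ℝ) ^ (1 - 110 * q) * y ^ 2 / 2 ≤ ((H122.m1 q n y - 1 : ℕ) : ℝ) ∧
      1 ≤ H122.m1 q n y - 1 ∧ H122.m1 q n y - 1 < n := by
  obtain ⟨f1, f2, f3, f4, f5, f6, f7, f8, f9, f10, f11, f12, f13, f14⟩ := h.facts
  have hn := h.env.n0
  have hy := h.env.y0
  obtain ⟨m1, m2, m3, m4⟩ := h.mm_facts
  replace m1 : (n : ℝ) ^ (1 - 110 * q) * y ^ 2 ≤ H122.m1 q n y := m1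
  replace m2 : 1 ≤ H122.m1 q n y := m2
  replace m4 : 2 * (H122.m1 q n y : ℝ) ≤ n / 2 := m4
  have c2 := log_c 2 (by norm_num)
  have x1 : 2 ≤ (n : ℝ) ^ (1 - 110 * q) * y ^ 2 := by
    refine le_of_log (by positivity) (by positivity) ?_
    simp (disch := positivity) only [Real.log_mul, Real.log_rpow, Real.log_pow]
    push_cast
    linarith
  have e1 : ((H122.m1 q n y - 1 : ℕ) : ℝ) = (H122.m1 q n y : ℝ) - 1 := by
    rw [Nat.cast_sub m2, Nat.cast_one]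
  have e2 : (2 : ℝ) ≤ H122.m1 q n y := x1.trans m1
  have e3 : 2 ≤ H122.m1 q n y := by exact_mod_cast e2
  refine ⟨?_, by omega, ?_⟩
  · rw [e1]
    linarith
  · have e4 : (H122.m1 q n y : ℝ) ≤ n := by linarith
    have e5 : H122.m1 q n y ≤ n := by exact_mod_cast e4
    omega

/-- the response energy -/
lemma rx_le (h : NW a0 b₁ q A b n y V al s lam η) (hs2 : s ^ 2 = (n : ℝ) ^ (-(80 * q)) * V)
    (hT0 : 0 < T) {r F : ℝ}
    (hr : s ^ 2 * (n : ℝ) ^ (-(80 * q)) * r ≤ 13 * F)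
    (hF : F ≤ n * ((1 + η) ^ 2 * Uq q n y T)) :
    r ≤ (n : ℝ) ^ 2 * (26 * (Uq q n y T / ((n : ℝ) ^ (-(160 * q)) * V * n))) := by
  have hn := h.env.n0
  have hy := h.env.y0
  have hV := h.env.V0
  have hη := h.kw.η0
  have k3 := h.bd.2.2.1
  have hU0 := Uq_pos (q := q) hn hy hT0
  have e1 : s ^ 2 * (n : ℝ) ^ (-(80 * q)) = (n : ℝ) ^ (-(160 * q)) * V := by
    rw [hs2]
    have : (n : ℝ) ^ (-(160 * q)) = (n : ℝ) ^ (-(80 * q)) * (n : ℝ) ^ (-(80 * q)) := by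
      rw [← Real.rpow_add hn]
      ring_nf
    rw [this]
    ring
  rw [e1] at hr
  have e2 : 0 < (n : ℝ) ^ (-(160 * q)) * V := by positivity
  have e3 : (n : ℝ) ^ 2 * (26 * (Uq q n y T / ((n : ℝ) ^ (-(160 * q)) * V * n))) =
      26 * (n * Uq q n y T) / ((n : ℝ) ^ (-(160 * q)) * V) := by
    field_simp
  rw [e3, le_div_iff₀ e2]
  have h4 : (1 + η) ^ 2 ≤ 2 := by nlinarith
  have e4 : n * ((1 + η) ^ 2 * Uq q n y T) ≤ n * (2 * Uq q n y T) := by gcongr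
  linarith

/-- the number `QU1` at the canonical systems -/
lemma fag_le_U {L : Law} (hA : Adm L) {q D : ℝ} (hap : ApQ q D L) {T u g : ℝ} (hT0 : 0 < T)
    (hT1 : T ≤ 1) (hu0 : 0 ≤ u) (hu1 : u ≤ 1) (hg0 : 0 ≤ g) (hg1 : g ≤ 1)
    (hU : 0 ≤ Uq q L.n L.x T) (S : Finset (Fin L.n)) :
    L.fag S (1 - T) u g ≤ L.n * ((1 + L.η) ^ 2 * Uq q L.n L.x T) :=
  Q_le (L := L) (cB := cbU (1 - T)) (cF := L.cfg u g) (κ := (Prod.fst : Bool × Bool → Bool)) hA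
    hU (hap.ap T hT0 hT1 u ⟨hu0, hu1⟩ g ⟨hg0, hg1⟩ S S).m1

/-- **The corner of the window at one parameter point.** -/
theorem q_at (h : NW a0 b₁ q A b n y V al s lam η) (hb1 : 1 ≤ b)
    (hal : 12 * al ≤ (n : ℝ) ^ (30 * q) * y ^ 2) (hs2 : s ^ 2 = (n : ℝ) ^ (-(80 * q)) * V)
    (hap : ApQ q 20 (lawOf n b y V al s lam η))
    (hT : (n : ℝ) ^ (30 * q) * y ^ 2 / 2 ≤ T) (hT1 : T ≤ 1) :
    (lawOf n b y V al s lam η).fag (Sn n (H122.m1 q n y - 1)) (1 - T) (H122.u1 q n)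
      ((n : ℝ) ^ (-(80 * q))) ≤ n * ((n : ℝ) ^ (q / 4) * (V / T)) := by
  obtain ⟨hT0, -⟩ := q_logT h hT
  obtain ⟨d0, d1⟩ := dl_bd h
  obtain ⟨hm, hm1, hm2⟩ := m_facts h
  have hA : Adm (lawOf n b y V al s lam η) := h.adm.1
  have hu : H122.u1 q n = 1 - (n : ℝ) ^ (-(80 * q)) := rfl
  have hu0 : 0 ≤ H122.u1 q n := by rw [hu]; linarith
  have hu1 : H122.u1 q n ≤ 1 := by rw [hu]; linarith
  have hU0 := Uq_pos (q := q) h.env.n0 h.env.y0 hT0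
  obtain ⟨t, ht, u, hu', g, hg, m, hmm, hty⟩ := typLU (lawOf n b y V al s lam η) hA h.kw.s0
    hm1 le_rfl (t0 := 1 - T) (t1 := 1 - T) (u0 := H122.u1 q n) (u1 := H122.u1 q n)
    (g0 := (n : ℝ) ^ (-(80 * q))) (g1 := 2 * (n : ℝ) ^ (-(80 * q))) (by linarith) le_rfl
    (by linarith) hu0 le_rfl hu1 d0.le (by linarith) (by linarith)
  have e1 : t = 1 - T := le_antisymm ht.2 ht.1
  have e2 : u = H122.u1 q n := le_antisymm hu'.2 hu'.1
  have e3 : m = H122.m1 q n y - 1 :=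
    le_antisymm (Finset.mem_Icc.1 hmm).2 (Finset.mem_Icc.1 hmm).1
  subst e1
  subst e2
  have hg0 : 0 ≤ g := d0.le.trans hg.1
  have hg1 : g ≤ 1 := hg.2.trans (by linarith)
  have hsh := can_sh (lawOf n b y V al s lam η) (t := 1 - T) (u := H122.u1 q n) (g := g)
    hA.vp0.le (by linarith) (by linarith) hu0 hu1 hg0 hg1
  have hT2 := hty Bool (Bool × Bool) Prod.fst _ _ {true} (FLU Bool) hsh
  have hrx := hT2.rx true (Sn n m) (Or.inl rfl)
  rw [ffU_true] at hrx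
  have hF := fag_le_U hA hap (T := T) (u := H122.u1 q n) (g := 2 * (n : ℝ) ^ (-(80 * q))) hT0 hT1
    hu0 hu1 (by linarith) (by linarith) hU0.le (SN n (H122.m1 q n y - 1 - 1))
  have e4 : ub (H122.u1 q n - H122.u1 q n) (2 * (n : ℝ) ^ (-(80 * q)) - (n : ℝ) ^ (-(80 * q)))
      true = (n : ℝ) ^ (-(80 * q)) := by
    show 2 * (n : ℝ) ^ (-(80 * q)) - (n : ℝ) ^ (-(80 * q)) = (n : ℝ) ^ (-(80 * q))
    ring
  rw [e4] at hrx
  subst e3
  have hX := rx_le h hs2 hT0 hrx hF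
  have hmono := fag_mono (lawOf n b y V al s lam η) h.kw.l0 h.kw.η0.le hA.vp0.le
    (Finset.Subset.refl (Sn n (H122.m1 q n y - 1))) (by linarith) (le_refl (1 - T))
    (by linarith) hu0 (le_refl (H122.u1 q n)) hu1 d0.le hg.1 hg1
  refine hmono.trans ?_
  exact q_pt h hb1 (by linarith) hs2 hT hT1 hu0 hu1 hg0 hg.2 hm hm1 hm2
    (hap.st T hT0 hT1 _ ⟨hu0, hu1⟩ _ ⟨hg0, hg1⟩) (hap.ap T hT0 hT1 _ ⟨hu0, hu1⟩ _ ⟨hg0, hg1⟩)
    (hap.q4 T hT0 hT1 _ ⟨hu0, hu1⟩ _ ⟨hg0, hg1⟩) hX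

end pt

/-- **The corner of the window, eventually on `KW`**; the field is not above a multiple of `y²`. -/
theorem qrow_al {a0 b₁ q A b : ℝ} (hq : 0 < q) (hb : 1 ≤ b) (hA : 1 ≤ A) (ha0 : a0 ≤ 1 / 6)
    (hb₁ : 100 * q < b₁) :
    ∀ᶠ n : ℕ in atTop, ∀ y V al s lam η : ℝ, KW a0 b₁ q A b n y V al s lam η →
      12 * al ≤ (n : ℝ) ^ (30 * q) * y ^ 2 → s ^ 2 = (n : ℝ) ^ (-(80 * q)) * V →
      ∀ T, H122.T2 q n y / 2 ≤ T → T ≤ 1 →
        (lawOf n b y V al s lam η).fag (Sn n (H122.m1 q n y - 1)) (1 - T) (H122.u1 q n)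
          ((n : ℝ) ^ (-(80 * q))) ≤ n * ((n : ℝ) ^ (q / 4) * (V / T)) := by
  filter_upwards [apU_ev (a0 := a0) (b₁ := b₁) (q := q) (A := A) (b := b) 20 hq (by linarith) hA
    ha0 hb₁] with n hn y V al s lam η hkw hal hs2 T hT hT1
  obtain ⟨hw, -, hap⟩ := hn y V al s lam η hkw
  exact q_at hw hb hal hs2 (apQ_of hw.adm.1 hap) hT hT1

/-- **The literal `QRow` of the second regime.** -/
theorem qrow_ev {a0 b₁ q A b : ℝ} (hq : 0 < q) (hb : 1 ≤ b) (hA : 1 ≤ A) (ha0 : a0 ≤ 1 / 6)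
    (hb₁ : 100 * q < b₁) :
    ∀ᶠ n : ℕ in atTop, ∀ y V al s lam η a : ℝ, KW a0 b₁ q A b n y V al s lam η →
      H122.WA q A n y al a → s ^ 2 = (n : ℝ) ^ (-(80 * q)) * V →
      ∀ T, H122.T2 q n y / 2 ≤ T → T ≤ 1 →
        (lawOf n b y V al s lam η).fag (Sn n (H122.m1 q n y - 1)) (1 - T) (H122.u1 q n)
          ((n : ℝ) ^ (-(80 * q))) ≤ n * ((n : ℝ) ^ (q / 4) * (V / T)) := by
  filter_upwards [qrow_al (a0 := a0) (b₁ := b₁) hq hb hA ha0 hb₁,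
    H178.ev_pow (show 0 < 40 * q by linarith) (12 * A), eventually_ge_atTop 1]
    with n hn h2 h1 y V al s lam η a hkw hwa hs2 T hT hT1
  refine hn y V al s lam η hkw ?_ hs2 T hT hT1
  have hn0 : (0 : ℝ) < n := by exact_mod_cast h1
  have e1 : al ≤ A * ((n : ℝ) ^ (-(10 * q)) * y ^ 2) := hwa.le.trans hwa.up
  have e2 : (n : ℝ) ^ (30 * q) = (n : ℝ) ^ (40 * q) * (n : ℝ) ^ (-(10 * q)) := by
    rw [← Real.rpow_add hn0]
    ring_nf
  rw [e2]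
  have e3 : 0 ≤ (n : ℝ) ^ (-(10 * q)) * y ^ 2 := by positivity
  have e4 := mul_le_mul_of_nonneg_right h2 e3
  linarith

end Vale.Agent.P146.H442
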