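import Vale.Agent.P146.H442.QRow
import Vale.Agent.P146.H463.Reg2N

/-!
# P146: the second regime of the second choice, without hypotheses

`qrow`, `rowUp2F` (literals of `H463`), `qrowC`, `rowFar_C` : the same under `al ≤ C y²`.
-/

open Filter

namespace Vale.Agent.P146.H442

open Vale.Agent.P146.H418

/-- the corner of the windows -/
theorem qrow {a0 b₁ q A b : ℝ} (hq : 0 < q) (hb : 1 ≤ b) (hA : 1 ≤ A) (ha0 : a0 ≤ 1 / 6)
    (hb₁ : 100 * q < b₁) : H463.QRow a0 b₁ q A b := qrow_ev hq hb hA ha0 hb₁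

/-- **The second regime of the second choice.** -/
theorem rowUp2F {a0 b₁ q A b : ℝ} (hq : 0 < q) (hb : 1 ≤ b) (hA : 1 ≤ A) (ha0 : a0 ≤ 1 / 6)
    (hb₁ : 100 * q < b₁) : H463.RowUp2F a0 b₁ q A b :=
  H463.R2.rowUp2F_of hq (by linarith) hA ha0 hb₁ (qrow hq hb hA ha0 hb₁)

/-- the corner of the windows under `al ≤ C y²` -/
theorem qrowC {a0 b₁ q A b C : ℝ} (hq : 0 < q) (hb : 1 ≤ b) (hA : 1 ≤ A) (ha0 : a0 ≤ 1 / 6)
    (hb₁ : 100 * q < b₁) : H463.R2.QRowC a0 b₁ q A b C := by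
  filter_upwards [qrow_al (a0 := a0) (b₁ := b₁) hq hb hA ha0 hb₁,
    H178.ev_pow (show 0 < 30 * q by linarith) (12 * C)]
    with n hn h2 y V al s lam η hkw hal hs2 T hT hT1
  refine hn y V al s lam η hkw ?_ hs2 T hT hT1
  have e4 := mul_le_mul_of_nonneg_right h2 (sq_nonneg y)
  linarith

/-- **The second regime under `al ≤ C y²`.** -/
theorem rowFar_C {a0 b₁ q A b C : ℝ} (hq : 0 < q) (hb : 1 ≤ b) (hA : 1 ≤ A) (ha0 : a0 ≤ 1 / 6)
    (hb₁ : 100 * q < b₁) :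
    ∀ᶠ n : ℕ in atTop, ∀ y V al s lam η : ℝ, KW a0 b₁ q A b n y V al s lam η →
      al ≤ C * y ^ 2 → s ^ 2 = (n : ℝ) ^ (-(80 * q)) * V →
        H122.RowUp2 q b n y V al s lam η :=
  H463.R2.rowFarC hq (by linarith) hA ha0 hb₁ (qrowC hq hb hA ha0 hb₁)

end Vale.Agent.P146.H442
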