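import Vale.Agent.P146.H320.TypU
import Vale.Agent.P146.H320.TypS
import Vale.Agent.P146.H698.SkelU

/-!
# P146: typical points of one law in the ensemble U, numbers

* `ffU_false`, `ffU_true`, `ppU_L`: the numerators of `H320.TypU` in the letters of one law;
* `TyL`: a typical point, the windows end at `t1`, `u1` (plain), `g1` (modulated);
* `typLU`: a typical point exists.
-/

open MeasureTheory ProbabilityTheory Set

namespace Vale.Agent.P146.H442

open Vale.Agent.P157.Lv hiding Dep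
open Vale.Agent.P146.H425 Vale.Agent.P146.H646
open Vale.Agent.P146.H196 Vale.Agent.P146.H246 Vale.Agent.P146.H347 Vale.Agent.P146.H325
  Vale.Agent.P146.H816 Vale.Agent.P146.H119 Vale.Agent.P146.H475 Vale.Agent.P146.H418
open Vale.Agent.P146.H281.U Vale.Agent.P146.H9.U Vale.Agent.P146.H698.Br Vale.Agent.P146.H698
  Vale.Agent.P146.H320

set_option linter.unusedSectionVars false

/-- the amplitudes of the two classes -/
noncomputable abbrev aL (L : Law) (k : Bool) (θ : Unit → ℝ) : ℝ := αb L.η k (θ ())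

section num

variable (L : Law)

lemma ffU_false (S : Finset (Fin L.n)) (t u g : ℝ) :
    ffU L.n L.nuL L.b (VFb L.vp L.s) (aL L) L.x false S t (ub u g) = L.ffg S t u g := by
  unfold ffU NmU Law.ffg QU1 aL αb
  rfl

lemma ffU_true (S : Finset (Fin L.n)) (t u g : ℝ) :
    ffU L.n L.nuL L.b (VFb L.vp L.s) (aL L) L.x true S t (ub u g) = L.fag S t u g := by
  unfold ffU NmU Law.fag QU1 aL αb
  rfl

lemma ppU_L (S : Finset (Fin L.n)) (t u g : ℝ) :
    ppU L.n L.nuL L.b (VFb L.vp L.s) (aL L) L.x S t (ub u g) = L.ppg S t u g := by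
  unfold ppU NmU Law.ppg QU2
  rfl

/-- a typical point of the law `L`: the windows end at `(t1, u1, g1)` and have the lengths `dt`,
`du`, `dg` -/
def TyL (t u g : ℝ) (m : ℕ) (S0 : Finset (Fin L.n)) (t1 u1 g1 dt du dg M : ℝ) : Prop :=
  ∀ (LB LF : Type) [Fintype LB] [DecidableEq LB] [Fintype LF] [DecidableEq LF]
    (κ : LF → Bool) (cB : LB → ℝ) (cF : LF → ℝ) (BL : Finset LB) (FL : Finset LF),
    ShU κ cB cF BL FL (VFb L.vp L.s) t (ub u g) →
    TypU L.n L.nuL L.b (aL L) L.x cB cF (fun l => aL L (κ l)) (VFb L.vp L.s) S0 t1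
      (ub u1 g1) dt (ub du dg) 13 M m BL FL

/-- **A typical point exists.** -/
theorem typLU (hA : Adm L) (hs : 0 < L.s) {m1 m2 : ℕ} (h1 : 1 ≤ m1) (h12 : m1 ≤ m2)
    {t0 t1 u0 u1 g0 g1 : ℝ} (ht0 : 0 ≤ t0) (ht : t0 ≤ t1) (ht1 : t1 ≤ 1) (hu0 : 0 ≤ u0)
    (hu : u0 ≤ u1) (hu1 : u1 ≤ 1) (hg0 : 0 ≤ g0) (hg : g0 ≤ g1) (hg1 : g1 ≤ 1) :
    ∃ t ∈ Icc t0 t1, ∃ u ∈ Icc u0 u1, ∃ g ∈ Icc g0 g1, ∃ m ∈ Finset.Icc m1 m2,
      TyL L t u g m (SN L.n (m1 - 1)) t1 u1 g1 (t1 - t0) (u1 - u0) (g1 - g0)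
        ((m2 : ℝ) - m1 + 1) := by
  have hV : ∀ k, 0 < VFb L.vp L.s k := fun k => by
    cases k
    · exact hA.vp0
    · exact pow_pos hs 2
  obtain ⟨t, htm, u, hum, m, hm, h⟩ := typU1 (n := L.n) (α := aL L) (VF := VFb L.vp L.s)
    (b := L.b) (x := L.x) (nuL_fin L hA.lam0 hA.η0) (nuL_ne L hA.lam0 hA.η0)
    (amU_L L hA.η0 id) hA.n0 hA.b0 hV hA.x0 hA.x1 h1 h12 ht0 ht ht1 (u0 := ub u0 g0)
    (u1 := ub u1 g1) (ub_nonneg hu0 hg0) (ub_mono hu hg) (ub_le_one hu1 hg1)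
  refine ⟨t, htm, u false, hum false, u true, hum true, m, hm, ?_⟩
  intro LB LF _ _ _ _ κ cB cF BL FL hsh
  have e1 : ub (u false) (u true) = u := by
    funext k
    cases k <;> rfl
  have e2 : (fun k => ub u1 g1 k - ub u0 g0 k) = ub (u1 - u0) (g1 - g0) := by
    funext k
    cases k <;> rfl
  rw [e1] at hsh
  have h3 := h LB LF κ cB cF BL FL hsh
  rw [e2] at h3
  have e3 : (5 * (Fintype.card Bool : ℝ) + 3) = 13 := by
    rw [Fintype.card_bool]
    norm_num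
  rw [e3] at h3
  exact h3

end num

end Vale.Agent.P146.H442
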